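import Vale.Agent.P054.T2.H580.Cont

/-!
# P054 / T2: separation by polynomials of bounded degree

`Sep g N A`: the points `g i`, `i ∈ A`, have dual functions of degree `≤ N`.
* `Sep.rk_eq`: then the evaluation functionals on `V_N` are independent, rank = number of points;
* `Sep.pullback`: pull back along a map `u ↦ Ψ(u)/q(u)` of degree `k`: `N` becomes `k N`;
* `sep_dist`: (FD) a set with `t` distances is separated in degree `2 t`;
* `sep_pairs`: pairs of such sets in degree `4 t`.
-/

open MvPolynomial Module Finset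

namespace Vale.Agent.P054.T2.H455

variable {K : Type*} [Field K] {ι σ τ : Type*}

/-- dual functions of degree `≤ N` at the points `g i`, `i ∈ A` -/
def Sep (g : ι → (σ → K)) (N : ℕ) (A : Finset ι) : Prop :=
  ∀ i ∈ A, ∃ F : MvPolynomial σ K, F.totalDegree ≤ N ∧ eval (g i) F ≠ 0 ∧
    ∀ j ∈ A, j ≠ i → eval (g j) F = 0

theorem Sep.mono_deg {g : ι → (σ → K)} {N M : ℕ} {A : Finset ι} (h : Sep g N A) (hNM : N ≤ M) :
    Sep g M A := by
  intro i hi
  obtain ⟨F, h1, h2, h3⟩ := h i hi
  exact ⟨F, h1.trans hNM, h2, h3⟩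

theorem Sep.subset {g : ι → (σ → K)} {N : ℕ} {A B : Finset ι} (h : Sep g N A) (hB : B ⊆ A) :
    Sep g N B := by
  intro i hi
  obtain ⟨F, h1, h2, h3⟩ := h i (hB hi)
  exact ⟨F, h1, h2, fun j hj => h3 j (hB hj)⟩

/-- evaluation at `p` as a functional on the polynomials of degree `≤ N` -/
noncomputable def evN (N : ℕ) (p : σ → K) : Dual K (restrictTotalDegree σ K N) :=
  (MvPolynomial.aeval p).toLinearMap.comp (restrictTotalDegree σ K N).subtype

theorem evN_apply (N : ℕ) (p : σ → K) (F : restrictTotalDegree σ K N) :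
    evN N p F = eval p (F : MvPolynomial σ K) := by
  simp [evN]

/-- independent functionals -/
theorem Sep.linearIndependent {g : ι → (σ → K)} {N : ℕ} {A : Finset ι} (h : Sep g N A) :
    LinearIndependent K (fun i : A => evN N (g i.1)) := by
  classical
  rw [Fintype.linearIndependent_iff]
  intro c hc i
  obtain ⟨F, h1, h2, h3⟩ := h i.1 i.2
  have h4 := congrArg (fun L : Dual K (restrictTotalDegree σ K N) =>
    L ⟨F, (mem_restrictTotalDegree _ _ _).mpr h1⟩) hc
  simp only [LinearMap.sum_apply, LinearMap.smul_apply, evN_apply, smul_eq_mul,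
    LinearMap.zero_apply] at h4
  rw [Finset.sum_eq_single i] at h4
  · exact (mul_eq_zero.mp h4).resolve_right h2
  · intro j _ hj
    rw [h3 j.1 j.2 (fun hh => hj (Subtype.ext hh)), mul_zero]
  · intro hi
    exact absurd (Finset.mem_univ i) hi

/-- rank = number of points -/
theorem Sep.rk_eq {g : ι → (σ → K)} {N : ℕ} {A : Finset ι} (h : Sep g N A) :
    H580.rk K (fun i => evN N (g i)) A = A.card := by
  classical
  have h1 := finrank_span_eq_card h.linearIndependent
  have h2 : Set.range (fun i : A => evN N (g i.1)) = (fun i => evN N (g i)) '' (A : Set ι) := by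
    ext x
    simp
  rw [h2] at h1
  unfold H580.rk
  rw [h1]
  simp

/-- a monomial of the pulled back polynomial -/
theorem deg_prod {q : MvPolynomial τ K} {Ψ : σ → MvPolynomial τ K} {k N : ℕ}
    (hq : q.totalDegree ≤ k) (hΨ : ∀ a, (Ψ a).totalDegree ≤ k) (m : σ →₀ ℕ)
    (hm : (m.sum fun _ e => e) ≤ N) (c : K) :
    (C c * q ^ (N - (m.sum fun _ e => e)) * m.prod fun a e => Ψ a ^ e).totalDegree ≤ k * N := by
  have h1 : (C c * q ^ (N - (m.sum fun _ e => e))).totalDegree ≤
      k * (N - (m.sum fun _ e => e)) := by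
    refine (totalDegree_mul _ _).trans ?_
    rw [totalDegree_C, zero_add]
    refine (totalDegree_pow _ _).trans ?_
    rw [mul_comm]
    exact Nat.mul_le_mul_right _ hq
  have h2 : (m.prod fun a e => Ψ a ^ e).totalDegree ≤ k * (m.sum fun _ e => e) := by
    unfold Finsupp.prod Finsupp.sum
    refine (totalDegree_finsetProd _ _).trans ?_
    rw [Finset.mul_sum]
    refine Finset.sum_le_sum fun a _ => ?_
    refine (totalDegree_pow _ _).trans ?_
    rw [mul_comm]
    exact Nat.mul_le_mul_right _ (hΨ a)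
  refine (totalDegree_mul _ _).trans ((add_le_add h1 h2).trans ?_)
  rw [← mul_add, Nat.sub_add_cancel hm]

/-- **pull back**: if `p i = Ψ(u i) / q(u i)` with `Ψ, q` of degree `≤ k` then separation of the
`p i` in degree `N` gives separation of the `u i` in degree `k N` -/
theorem Sep.pullback {p : ι → (σ → K)} {u : ι → (τ → K)} {k N : ℕ} {A : Finset ι}
    {q : MvPolynomial τ K} {Ψ : σ → MvPolynomial τ K} (hq : q.totalDegree ≤ k)
    (hΨ : ∀ a, (Ψ a).totalDegree ≤ k) (hq0 : ∀ i ∈ A, eval (u i) q ≠ 0)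
    (hp : ∀ i ∈ A, ∀ a, eval (u i) q * p i a = eval (u i) (Ψ a)) (h : Sep p N A) :
    Sep u (k * N) A := by
  classical
  intro i hi
  obtain ⟨F, h1, h2, h3⟩ := h i hi
  set G : MvPolynomial τ K := ∑ m ∈ F.support,
    C (F.coeff m) * q ^ (N - (m.sum fun _ e => e)) * m.prod fun a e => Ψ a ^ e with hG
  have hdeg : ∀ m ∈ F.support, (m.sum fun _ e => e) ≤ N := fun m hm =>
    (le_totalDegree hm).trans h1
  have hev : ∀ j ∈ A, eval (u j) G = eval (u j) q ^ N * eval (p j) F := by
    intro j hj
    have h5 : eval (p j) F = ∑ m ∈ F.support, F.coeff m * m.prod fun a e => p j a ^ e := by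
      rw [eval_eq]
      rfl
    rw [h5, hG, map_sum, Finset.mul_sum]
    refine Finset.sum_congr rfl fun m hm => ?_
    rw [map_mul, map_mul, eval_C, map_pow]
    have h6 : eval (u j) (m.prod fun a e => Ψ a ^ e) =
        eval (u j) q ^ (m.sum fun _ e => e) * m.prod fun a e => p j a ^ e := by
      unfold Finsupp.prod Finsupp.sum
      rw [map_prod, ← Finset.prod_pow_eq_pow_sum, ← Finset.prod_mul_distrib]
      refine Finset.prod_congr rfl fun a _ => ?_
      rw [map_pow, ← hp j hj a, mul_pow]
    rw [h6]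
    have h7 := hdeg m hm
    calc F.coeff m * eval (u j) q ^ (N - (m.sum fun _ e => e)) *
          (eval (u j) q ^ (m.sum fun _ e => e) * m.prod fun a e => p j a ^ e)
        = F.coeff m * (eval (u j) q ^ (N - (m.sum fun _ e => e)) *
            eval (u j) q ^ (m.sum fun _ e => e)) * m.prod fun a e => p j a ^ e := by ring
      _ = F.coeff m * eval (u j) q ^ N * m.prod fun a e => p j a ^ e := by
            rw [← pow_add, Nat.sub_add_cancel h7]
      _ = eval (u j) q ^ N * (F.coeff m * m.prod fun a e => p j a ^ e) := by ring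
  refine ⟨G, ?_, ?_, ?_⟩
  · rw [hG]
    refine (totalDegree_finsetSum _ _).trans ?_
    exact Finset.sup_le fun m hm => deg_prod hq hΨ m (hdeg m hm) _
  · rw [hev i hi]
    exact mul_ne_zero (pow_ne_zero _ (hq0 i hi)) h2
  · intro j hj hji
    rw [hev j hj, h3 j hj hji, mul_zero]

/-- (FD) distances separate: `D` contains all squared distances of distinct points of `P` -/
theorem sep_dist {d : ℕ} {F : Type*} [Field F] (P : Finset (Fin d → F)) (D : Finset F)
    (hD0 : (0 : F) ∉ D)
    (hD : ∀ x ∈ P, ∀ y ∈ P, x ≠ y → ∑ i, (x i - y i) ^ 2 ∈ D) :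
    Sep (fun x : Fin d → F => x) (2 * D.card) P := by
  classical
  intro x hx
  refine ⟨∏ c ∈ D, (∑ i, (X i - C (x i)) ^ 2 - C c), ?_, ?_, ?_⟩
  · refine (totalDegree_finsetProd _ _).trans ?_
    have : ∀ c ∈ D, ((∑ i, (X i - C (x i)) ^ 2 - C c : MvPolynomial (Fin d) F)).totalDegree ≤ 2 := by
      intro c _
      refine (totalDegree_sub _ _).trans (max_le ?_ ?_)
      · refine (totalDegree_finsetSum _ _).trans (Finset.sup_le fun i _ => ?_)
        refine (totalDegree_pow _ _).trans ?_
        have : ((X i - C (x i) : MvPolynomial (Fin d) F)).totalDegree ≤ 1 := by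
          refine (totalDegree_sub _ _).trans (max_le ?_ ?_)
          · exact (totalDegree_X i).le
          · rw [totalDegree_C]; exact Nat.zero_le _
        omega
      · rw [totalDegree_C]; exact Nat.zero_le _
    calc ∑ c ∈ D, _ ≤ ∑ _c ∈ D, 2 := Finset.sum_le_sum this
      _ = 2 * D.card := by rw [Finset.sum_const, smul_eq_mul, mul_comm]
  · rw [map_prod, Finset.prod_ne_zero_iff]
    intro c hc
    simp only [map_sub, map_sum, map_pow, eval_X, eval_C, sub_self, ne_eq]
    intro h
    rw [show (∑ _i : Fin d, (0 : F) ^ 2) = 0 by simp, zero_sub, neg_eq_zero] at h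
    exact hD0 (h ▸ hc)
  · intro y hy hyx
    rw [map_prod]
    refine Finset.prod_eq_zero (hD y hy x hx hyx) ?_
    simp

end Vale.Agent.P054.T2.H455
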