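import Vale.Agent.P054.T2.H428.SecC
import Vale.Agent.P054.T2.H930.Jets
import Vale.Agent.P054.T2.H686.Par
import Vale.Agent.P054.T2.H163.Hilb

/-!
# P054 / T2, section C, leaf [C3]: the cases LINEAR and STEREO

An edge whose class is separated by polynomials of degree `≤ N` in the coordinate `u` of the leaf is
countable (`cnt_of_sep`).  `cnt_linear`: the class lies in `e.2 + V`, `ζ` injective on
`V + ℝ (e.1 - e.2)`, `e.1 - e.2 ∉ V`.  `cnt_stereo`: `ζ` bijective on `V`.
-/

open MvPolynomial Module Finset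

namespace Vale.Agent.P054.T2.H455

open SecC
open H686 (mu Qf Bf zt dists E)
open H580 (Vw hilbF IsFilt)
open H930 (germ grad)
open H441 (hF rkY)

/-- `P ∩ K[u]` has a smaller Hilbert function than `P` -/
theorem hF_comap_le {K : Type*} [Field K] {α β : Type*} [Finite α] [Finite β]
    (P : Ideal (MvPolynomial (α ⊕ β) K)) (w : α ⊕ β → ℕ) (hw : ∀ x, w x ≠ 0)
    (hw1 : ∀ x, w (Sum.inl x) = 1) (n : ℕ) :
    hF (P.comap (rename (R := K) Sum.inl)) n ≤ hilbF (Vw K w) P n := by
  classical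
  have hV : IsFilt (Vw K w) := H580.isFilt_Vw w hw
  set Q := P.comap (rename (R := K) (Sum.inl : α → α ⊕ β)) with hQ
  have hfin := hV.finite_map P n
  let φ : (MvPolynomial α K ⧸ Q) →ₗ[K] (MvPolynomial (α ⊕ β) K ⧸ P) :=
    (Ideal.quotientMapₐ P (rename (R := K) (Sum.inl : α → α ⊕ β)) (fun _ hx => hx)).toLinearMap
  have hφ : Function.Injective φ := by
    rw [injective_iff_map_eq_zero]
    intro x hx
    obtain ⟨G, rfl⟩ := Ideal.Quotient.mk_surjective x
    have h0 : Ideal.Quotient.mk P (rename Sum.inl G) = 0 := hx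
    rw [Ideal.Quotient.eq_zero_iff_mem] at h0
    exact Ideal.Quotient.eq_zero_iff_mem.2 h0
  have h1 : ((restrictTotalDegree α K n).map (Ideal.Quotient.mkₐ K Q).toLinearMap).map φ ≤
      (Vw K w n).map (Ideal.Quotient.mkₐ K P).toLinearMap := by
    rintro _ ⟨_, ⟨G, hG, rfl⟩, rfl⟩
    refine ⟨rename Sum.inl G, ?_, rfl⟩
    rw [SetLike.mem_coe, H580.mem_Vw]
    intro s hs
    rw [support_rename_of_injective Sum.inl_injective, Finset.mem_image] at hs
    obtain ⟨t, ht, rfl⟩ := hs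
    rw [SetLike.mem_coe, mem_restrictTotalDegree] at hG
    refine le_trans (le_of_eq ?_) ((le_totalDegree ht).trans hG)
    rw [Finsupp.weight_apply, Finsupp.sum_mapDomain_index (by simp) (by intros; simp [add_mul])]
    simp [hw1]
  have h2 := Submodule.finrank_mono h1
  rw [(Submodule.equivMapOfInjective φ hφ _).finrank_eq.symm] at h2
  exact h2

/-- separated points: rank = number -/
theorem Sep.rkY_eq {K : Type*} [Field K] {ι σ : Type*} [Finite σ] [DecidableEq (σ → K)]
    {g : ι → (σ → K)} {N : ℕ} {A : Finset ι} (h : Sep g N A) :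
    rkY (A.image g) N = A.card := by
  classical
  have hinj : Set.InjOn g A := by
    intro i hi j hj hij
    by_contra hne
    obtain ⟨F, -, h2, h3⟩ := h i hi
    exact h2 (by rw [hij]; exact h3 j hj (Ne.symm hne))
  rw [← Finset.card_image_of_injOn hinj]
  set Y := A.image g with hY
  -- surjectivity of the restriction
  have htop : (restrictTotalDegree σ K N).map (H441.resA Y).toLinearMap = ⊤ := by
    rw [eq_top_iff]
    intro c _
    have hF : ∀ y : Y, ∃ F ∈ restrictTotalDegree σ K N, eval (y : σ → K) F = 1 ∧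
        ∀ y' : Y, y' ≠ y → eval (y' : σ → K) F = 0 := by
      rintro ⟨y, hy⟩
      obtain ⟨i, hi, rfl⟩ := Finset.mem_image.1 hy
      obtain ⟨F, h1, h2, h3⟩ := h i hi
      refine ⟨C (eval (g i) F)⁻¹ * F, ?_, ?_, ?_⟩
      · rw [mem_restrictTotalDegree]
        refine (totalDegree_mul _ _).trans ?_
        rw [totalDegree_C, zero_add]
        exact h1
      · rw [map_mul, eval_C]
        exact inv_mul_cancel₀ h2
      · rintro ⟨y', hy'⟩ hne
        obtain ⟨j, hj, rfl⟩ := Finset.mem_image.1 hy'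
        rw [map_mul, h3 j hj (fun hji => hne (by subst hji; rfl)), mul_zero]
    choose F hF1 hF2 hF3 using hF
    refine ⟨∑ y : Y, C (c y) * F y, ?_, ?_⟩
    · refine Submodule.sum_mem _ fun y _ => ?_
      rw [mem_restrictTotalDegree]
      refine (totalDegree_mul _ _).trans ?_
      rw [totalDegree_C, zero_add]
      exact (mem_restrictTotalDegree _ _ _).1 (hF1 y)
    · funext y
      show H441.resA Y _ y = c y
      rw [H441.resA_apply, map_sum, Finset.sum_eq_single y]
      · rw [map_mul, eval_C, hF2, mul_one]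
      · intro y' _ hy'
        rw [map_mul, hF3 y' y (Ne.symm hy'), mul_zero]
      · intro hy'; exact absurd (Finset.mem_univ _) hy'
  unfold rkY
  rw [htop, finrank_top]
  simp

variable {n : ℕ} {A : Finset (ZZ n × ZZ n)} {W D σ v : ℕ}

/-- a class separated in the coordinate `u` is countable -/
theorem cnt_of_sep (S : Side n A W D σ v) (hv : v = 0) (e : ZZ n × ZZ n)
    (hcomap : ∀ e' ∈ S.cls e, (S.P e').comap (rename (R := ℝ) Sum.inl) ≤ S.Pu e')
    {N : ℕ} (hsep : Sep (fun e' : ZZ n × ZZ n => mu e'.1 e'.2) N (S.cls e)) (G : ℕ) :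
    S.Cnt N G e := by
  classical
  right
  refine ⟨hv, 0, fun K => ⟨K, le_rfl, ?_⟩⟩
  set Y := (S.cls e).image fun e' : ZZ n × ZZ n => mu e'.1 e'.2 with hY
  have hrk : rkY Y N = (S.cls e).card := hsep.rkY_eq
  have hcl : ∀ e' ∈ S.cls e, e' ∈ A ∧ e'.1 = e.1 ∧ S.P e' = S.P e := fun e' h => S.mem_cls.1 h
  -- the leaf system vanishes at the points
  have hf0 : ∀ e' ∈ A, ∀ i, eval (mu e'.1 e'.2) (S.f e'.1 i) = 0 := by
    intro e' he' i
    have h1 := S.hzero e' he' (Fin.castAdd _ i)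
    rw [S.hleft, eval_rename] at h1
    exact h1
  have hcard : Fintype.card (Fin n) - (n - σ) = σ := by
    rw [Fintype.card_fin]
    have := S.hσ
    omega
  have h1 : rkY Y N * (K + σ).choose σ ≤
      hF ((S.P e).comap (rename (R := ℝ) Sum.inl)) ((K + 1) * N + K) := by
    refine H163.lo _ Y (fun p => H930.J p (S.f e.1) (K + 1)) ?_ ?_ ?_
    · intro p _
      exact H930.pow_le_J p (S.f e.1) (K + 1)
    · intro p hp
      obtain ⟨e', he', rfl⟩ := Finset.mem_image.1 hp
      obtain ⟨h2, h3, h4⟩ := hcl e' he'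
      have h5 := hcomap e' he'
      rw [h4] at h5
      refine h5.trans ?_
      unfold SecC.Side.Pu
      rw [h3]
      exact H930.germ_le_J _ _ _
    · intro p hp
      obtain ⟨e', he', rfl⟩ := Finset.mem_image.1 hp
      obtain ⟨h2, h3, h4⟩ := hcl e' he'
      have h5 := H930.finrank_quot_J (mu e'.1 e'.2) (S.f e'.1) (hf0 e' h2) (S.hindf e' h2) K
      rw [hcard] at h5
      rw [← h3, h5]
  have h2 : hF ((S.P e).comap (rename (R := ℝ) Sum.inl)) ((K + 1) * N + K) ≤
      hilbF (Vw ℝ (wt W)) (S.P e) ((K + 1) * N + K) :=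
    hF_comap_le (S.P e) (wt W) (wt_ne S.hW) (fun _ => rfl) _
  have h3 : hilbF (Vw ℝ (wt W)) (S.P e) ((K + 1) * N + K) ≤
      hilbF (Vw ℝ (wt W)) (S.P e) ((K + 1) * (N + 1) + 0) :=
    (H580.isFilt_Vw (wt W) (wt_ne S.hW)).hilbF_mono _ (by nlinarith)
  rw [hrk] at h1
  omega

/-- **LINEAR** -/
theorem cnt_linear (S : Side n A W D σ v) (hv : v = 0) (e : ZZ n × ZZ n)
    (hcomap : ∀ e' ∈ S.cls e, (S.P e').comap (rename (R := ℝ) Sum.inl) ≤ S.Pu e')
    (V : Submodule ℝ (ZZ n)) (hcls : ∀ e' ∈ S.cls e, e'.2 - e.2 ∈ V)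
    (hw : e.1 - e.2 ∉ V) (hinj : ∀ w ∈ V ⊔ Submodule.span ℝ {e.1 - e.2}, w.1 = 0 → w = 0)
    {N : ℕ} (hsep : Sep (fun e' : ZZ n × ZZ n => pt e'.2) N (S.cls e)) (G : ℕ) :
    S.Cnt N G e := by
  classical
  refine cnt_of_sep S hv e hcomap ?_ G
  obtain ⟨num, den, h1, h2, h3⟩ := H686.par_linear e.1 e.2 V hinj hw
  have h4 := Sep.pullback (p := fun e' : ZZ n × ZZ n => pt e'.2)
    (u := fun e' : ZZ n × ZZ n => mu e'.1 e'.2) (k := 1) (q := den) (Ψ := num) h2 h1
    (fun e' he' => by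
      obtain ⟨ha, hb, -⟩ := S.mem_cls.1 he'
      have h5 := S.hne e' ha
      rw [hb] at h5
      have h6 := (h3 e'.2 (hcls e' he') h5).1
      simpa only [hb] using h6)
    (fun e' he' a => by
      obtain ⟨ha, hb, -⟩ := S.mem_cls.1 he'
      have h5 := S.hne e' ha
      rw [hb] at h5
      have h6 := (h3 e'.2 (hcls e' he') h5).2 a
      simp only [hb]
      rw [mul_comm]
      exact h6) hsep
  rwa [one_mul] at h4

/-- **STEREO** -/
theorem cnt_stereo (S : Side n A W D σ v) (hv : v = 0) (e : ZZ n × ZZ n)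
    (hcomap : ∀ e' ∈ S.cls e, (S.P e').comap (rename (R := ℝ) Sum.inl) ≤ S.Pu e')
    (V : Submodule ℝ (ZZ n)) (hinj : ∀ w ∈ V, w.1 = 0 → w = 0) (hdim : finrank ℝ V = n + 1)
    (s' : ZZ n) (hs' : s'.1 = e.1.1) (hcls : ∀ e' ∈ S.cls e, e'.2 - s' ∈ V)
    (hne : ∀ e' ∈ S.cls e, Bf (s' - e.1) (e'.2 - s') ≠ 0)
    {N : ℕ} (hsep : Sep (fun e' : ZZ n × ZZ n => pt e'.2) N (S.cls e)) (G : ℕ) :
    S.Cnt (2 * N) G e := by
  classical
  refine cnt_of_sep S hv e hcomap ?_ G
  obtain ⟨Gm, hG1, hG2⟩ := H686.exists_G V hinj hdim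
  obtain ⟨num, h1, h3⟩ := H686.par_stereo e.1 s' hs' V hinj Gm hG1 hG2
  refine Sep.pullback (p := fun e' : ZZ n × ZZ n => pt e'.2)
    (u := fun e' : ZZ n × ZZ n => mu e'.1 e'.2) (k := 2) (q := H686.QP Gm) (Ψ := num)
    (H686.totalDegree_QP Gm) h1
    (fun e' he' => ?_)
    (fun e' he' a => ?_) hsep
  · obtain ⟨ha, hb, -⟩ := S.mem_cls.1 he'
    have h5 := S.hne e' ha
    have hq := S.hQ e' ha
    rw [hb] at h5 hq
    simp only [hb]
    intro h0
    rw [H686.eval_QP] at h0
    set r := e'.2 with hr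
    have h6 := H686.sub_eq_smul_vec1 h5
    set c : ℝ := r.1 0 - e.1.1 0 with hc
    have hc0 : c ≠ 0 := sub_ne_zero.2 h5.symm
    have h2 : r - s' = c • Gm (H686.vec1 (mu e.1 r)) := by
      have h7 : (r - s') - c • Gm (H686.vec1 (mu e.1 r)) = 0 := by
        apply hinj
        · exact V.sub_mem (hcls e' he') (V.smul_mem _ (hG1 _))
        · rw [Prod.fst_sub, Prod.fst_sub, hs', h6, Prod.smul_fst, hG2, sub_self]
      exact sub_eq_zero.1 h7
    have h8 : e.1 - r = -((s' - e.1) + c • Gm (H686.vec1 (mu e.1 r))) := by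
      rw [← h2]; abel
    have h9 : Qf (s' - e.1) = 0 := by
      unfold Qf
      refine Finset.sum_eq_zero fun i _ => ?_
      rw [Prod.fst_sub, hs', sub_self]
      simp
    have hneg : ∀ x : ZZ n, Qf (-x) = Qf x := by
      intro x
      unfold Qf
      refine Finset.sum_congr rfl fun i _ => ?_
      simp
    rw [h8, hneg, H686.Qf_add, h9, H686.Bf_smul_right, H686.Qf_smul, h0] at hq
    have h10 := hne e' he'
    rw [← hr, h2, H686.Bf_smul_right] at h10
    apply h10
    linarith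
  · obtain ⟨ha, hb, -⟩ := S.mem_cls.1 he'
    have h5 := S.hne e' ha
    have hq := S.hQ e' ha
    rw [hb] at h5 hq
    have hneg : Qf (e'.2 - e.1) = 0 := by
      rw [← hq]
      unfold Qf
      refine Finset.sum_congr rfl fun i _ => ?_
      simp only [Prod.fst_sub, Prod.snd_sub, Pi.sub_apply]
      ring
    have h6 := h3 e'.2 (hcls e' he') h5 hneg a
    simp only [hb]
    rw [mul_comm]
    exact h6

/-- **(FD)**: a set of edges whose second end points are images of points of `P × P`, all with the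
same first end point, is separated in degree `4 t` -/
theorem sep_pt (P : Finset (E n)) (B : E n ≃ₗᵢ[ℝ] E n) (C : Finset (ZZ n × ZZ n)) (s : ZZ n)
    (hC : ∀ e ∈ C, e.1 = s) (hP : ∀ e ∈ C, ∃ r ∈ P ×ˢ P, e.2 = zt B r) :
    Sep (fun e' : ZZ n × ZZ n => pt e'.2) (4 * (dists P).card) C := by
  classical
  intro e he
  obtain ⟨r, hr, her⟩ := hP e he
  obtain ⟨f, h1, h2, h3⟩ := H686.exists_sep P B r hr
  refine ⟨f, h1, ?_, ?_⟩
  · simp only [her]
    exact h2
  · intro e' he' hne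
    obtain ⟨r', hr', her'⟩ := hP e' he'
    simp only [her']
    refine h3 r' hr' ?_
    rintro rfl
    apply hne
    refine Prod.ext ?_ ?_
    · rw [hC e he, hC e' he']
    · rw [her, her']

end Vale.Agent.P054.T2.H455
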