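import Vale.Agent.P054.T2.H441.AGeo
import Vale.Agent.P054.T2.H930.TanEdge
import Vale.Agent.P054.T2.H580.Hat

/-!
# P054 / T2, leaf [AD-T]: the family T of the edges `(g, s, r)`

`edgePt s r = (meet s r; s; r)` (helper930), weights `wh = (1 | W)` (helper580).  For every
derivation `δ` of the reals which kills the coordinates of the points, the prime of the germ of a
system of the family T at an edge, contracted to `ℝ[s, r]`, `ℝ[s]` or `ℝ[r]`, is stable under the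
coefficientwise `δ` in the coordinates `(y, y')`, as soon as [GOOD] holds at level `N + 3 W`.
-/

set_option linter.unusedSectionVars false

open MvPolynomial

namespace Vale.Agent.P054.T2.H455

open Vale.Agent.P054.T2.H686 Vale.Agent.P054.T2.H580 Vale.Agent.P054.T2.SecC
open Vale.Agent.P054.T2.H930 (germ mx grad J edgePt ptc Pt)
open Vale.Agent.P054.T2.H441 (cD dM zB rot yP chg chg_X dM_C dM_X der_eq_mul der_skew der_zB
  dM_mem_germ_of_good cD_mem_comap' cD_mem_Vw mem_span_const_poly)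

variable {n : ℕ} {k : Type*} [CommRing k] [Algebra k ℝ]

/-- index type of the family T -/
abbrev TI (n : ℕ) := Crd n ⊕ (ZI n ⊕ ZI n)

/-- the velocity of `θ`, as a polynomial in the block `j` -/
noncomputable def rT (O : Matrix (Fin (n + 1)) (Fin (n + 1)) ℝ) (j : ZI n → TI n)
    (i : Fin (n + 1)) : MvPolynomial (TI n) ℝ :=
  ∑ l, C (O i l) * ((X (j (Sum.inr l)) - X (j (Sum.inl l))) * C (1 / 2))

/-- the block of `s` -/
def js : ZI n → TI n := fun b => Sum.inr (Sum.inl b)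

/-- the block of `r` -/
def jr : ZI n → TI n := fun b => Sum.inr (Sum.inr b)

/-- `ζ₀(s) - ζ₀(r)` -/
noncomputable def muT : MvPolynomial (TI n) ℝ := X (js (Sum.inl 0)) - X (jr (Sum.inl 0))

/-- the velocity of `ζ_i(s) - ζ_i(r)` -/
noncomputable def dzT (O : Matrix (Fin (n + 1)) (Fin (n + 1)) ℝ) (i : Fin (n + 1)) :
    MvPolynomial (TI n) ℝ := rT O jr i - rT O js i

/-- `muT *` velocity of `u_i` -/
noncomputable def duT (O : Matrix (Fin (n + 1)) (Fin (n + 1)) ℝ) (i : Fin n) :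
    MvPolynomial (TI n) ℝ := dzT O i.succ - X (Sum.inl (Sum.inl i)) * dzT O 0

/-- the vector field, multiplied by `muT` -/
noncomputable def GT (O : Matrix (Fin (n + 1)) (Fin (n + 1)) ℝ) : TI n → MvPolynomial (TI n) ℝ
  | Sum.inl (Sum.inl i) => duT O i
  | Sum.inl (Sum.inr (Sum.inl i)) => - (muT * rT O js i.succ)
      + (muT * rT O js 0) * X (Sum.inl (Sum.inl i)) - X (js (Sum.inl 0)) * duT O i
  | Sum.inl (Sum.inr (Sum.inr _)) => - (muT * rT O js 0)
      - ∑ i : Fin n, ((muT * rT O js i.succ) * X (Sum.inl (Sum.inl i))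
        + X (js (Sum.inr i.succ)) * duT O i)
  | Sum.inr (Sum.inl (Sum.inl i)) => - (muT * rT O js i)
  | Sum.inr (Sum.inl (Sum.inr i)) => muT * rT O js i
  | Sum.inr (Sum.inr (Sum.inl i)) => - (muT * rT O jr i)
  | Sum.inr (Sum.inr (Sum.inr i)) => muT * rT O jr i

section eval

variable (O : Matrix (Fin (n + 1)) (Fin (n + 1)) ℝ) (s r : ZZ n)

theorem edgePt_js (b : ZI n) : edgePt s r (js b) = pt s b := rfl

theorem edgePt_jr (b : ZI n) : edgePt s r (jr b) = pt r b := rfl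

theorem eval_rT_js (i : Fin (n + 1)) : eval (edgePt s r) (rT O js i) = rot O s i := by
  unfold rT rot
  rw [map_sum]
  refine Finset.sum_congr rfl fun l _ => ?_
  simp only [map_mul, map_sub, eval_C, eval_X, edgePt_js]
  show O i l * ((s.2 l - s.1 l) * (1 / 2)) = _
  ring

theorem eval_rT_jr (i : Fin (n + 1)) : eval (edgePt s r) (rT O jr i) = rot O r i := by
  unfold rT rot
  rw [map_sum]
  refine Finset.sum_congr rfl fun l _ => ?_
  simp only [map_mul, map_sub, eval_C, eval_X, edgePt_jr]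
  show O i l * ((r.2 l - r.1 l) * (1 / 2)) = _
  ring

theorem eval_muT : eval (edgePt s r) muT = s.1 0 - r.1 0 := by
  unfold muT
  rw [map_sub, eval_X, eval_X]
  rfl

theorem eval_dzT (i : Fin (n + 1)) : eval (edgePt s r) (dzT O i) = rot O r i - rot O s i := by
  unfold dzT
  rw [map_sub, eval_rT_js, eval_rT_jr]

theorem eval_duT (i : Fin n) : eval (edgePt s r) (duT O i) =
    (rot O r i.succ - rot O s i.succ) - mu s r i * (rot O r 0 - rot O s 0) := by
  unfold duT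
  rw [map_sub, map_mul, eval_dzT, eval_dzT, eval_X]
  rfl

end eval

/-- **the vector field along the actual edges** -/
theorem eval_GT (D : Derivation k ℝ ℝ) (O : Matrix (Fin (n + 1)) (Fin (n + 1)) ℝ) (s r : ZZ n)
    (hs : ∀ i, D (s.1 i) = - rot O s i ∧ D (s.2 i) = rot O s i)
    (hr : ∀ i, D (r.1 i) = - rot O r i ∧ D (r.2 i) = rot O r i) (h0 : s.1 0 ≠ r.1 0)
    (x : TI n) :
    eval (edgePt s r) muT * D (edgePt s r x) = eval (edgePt s r) (GT O x) := by
  have hne : s.1 0 - r.1 0 ≠ 0 := sub_ne_zero.2 h0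
  rw [eval_muT]
  -- the velocity of `u_i`
  have hu : ∀ i : Fin n, (s.1 0 - r.1 0) * D (mu s r i) = eval (edgePt s r) (duT O i) := by
    intro i
    have h1 : mu s r i * (s.1 0 - r.1 0) = s.1 i.succ - r.1 i.succ := by
      unfold mu
      rw [div_mul_cancel₀ _ hne]
    have h2 := congrArg D h1
    rw [Derivation.leibniz, smul_eq_mul, smul_eq_mul, map_sub, map_sub, (hr 0).1, (hr _).1,
      (hs 0).1, (hs _).1] at h2
    rw [eval_duT]
    linear_combination h2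
  rcases x with (i | i | i) | (i | i) | (i | i)
  · exact hu i
  · have hE : eval (edgePt s r) (GT O (Sum.inl (Sum.inr (Sum.inl i)))) =
        -((s.1 0 - r.1 0) * rot O s i.succ) + (s.1 0 - r.1 0) * rot O s 0 * mu s r i -
          s.1 0 * ((s.1 0 - r.1 0) * D (mu s r i)) := by
      rw [hu i]
      show eval (edgePt s r) (- (muT * rT O js i.succ)
        + (muT * rT O js 0) * X (Sum.inl (Sum.inl i)) - X (js (Sum.inl 0)) * duT O i) = _
      simp only [map_sub, map_add, map_neg, map_mul, eval_muT, eval_rT_js, eval_X]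
      rfl
    have hL : D (s.1 i.succ - s.1 0 * mu s r i) =
        - rot O s i.succ - (s.1 0 * D (mu s r i) + mu s r i * (- rot O s 0)) := by
      rw [map_sub, Derivation.leibniz, (hs _).1, (hs 0).1, smul_eq_mul, smul_eq_mul]
    show (s.1 0 - r.1 0) * D (s.1 i.succ - s.1 0 * mu s r i) = _
    rw [hE, hL]
    ring
  · have hE : eval (edgePt s r) (GT O (Sum.inl (Sum.inr (Sum.inr i)))) =
        -((s.1 0 - r.1 0) * rot O s 0) - ∑ i : Fin n,
          ((s.1 0 - r.1 0) * rot O s i.succ * mu s r i +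
            s.2 i.succ * ((s.1 0 - r.1 0) * D (mu s r i))) := by
      show eval (edgePt s r) (- (muT * rT O js 0)
        - ∑ i : Fin n, ((muT * rT O js i.succ) * X (Sum.inl (Sum.inl i))
          + X (js (Sum.inr i.succ)) * duT O i)) = _
      simp only [map_sub, map_add, map_neg, map_mul, map_sum, eval_muT, eval_rT_js, eval_X, hu]
      rfl
    have hL : D (- s.2 0 - ∑ i : Fin n, s.2 i.succ * mu s r i) =
        - rot O s 0 - ∑ i : Fin n, (s.2 i.succ * D (mu s r i) + mu s r i * rot O s i.succ) := by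
      rw [map_sub, map_neg, map_sum, (hs 0).2]
      congr 1
      refine Finset.sum_congr rfl fun i _ => ?_
      rw [Derivation.leibniz, (hs _).2, smul_eq_mul, smul_eq_mul]
    show (s.1 0 - r.1 0) * D (- s.2 0 - ∑ i : Fin n, s.2 i.succ * mu s r i) = _
    rw [hE, hL, mul_sub, Finset.mul_sum]
    congr 1
    · ring
    · refine Finset.sum_congr rfl fun i _ => ?_
      ring
  · show (s.1 0 - r.1 0) * D (s.1 i) = _
    unfold GT
    rw [map_neg, map_mul, eval_muT, eval_rT_js, (hs i).1]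
    ring
  · show (s.1 0 - r.1 0) * D (s.2 i) = _
    unfold GT
    rw [map_mul, eval_muT, eval_rT_js, (hs i).2]
  · show (s.1 0 - r.1 0) * D (r.1 i) = _
    unfold GT
    rw [map_neg, map_mul, eval_muT, eval_rT_jr, (hr i).1]
    ring
  · show (s.1 0 - r.1 0) * D (r.2 i) = _
    unfold GT
    rw [map_mul, eval_muT, eval_rT_jr, (hr i).2]

/-- the coordinates `(y, y')` of a block are constant -/
theorem dM_yP_block (D : Derivation k ℝ ℝ) (B O : Matrix (Fin (n + 1)) (Fin (n + 1)) ℝ)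
    (hD : B.map D = O * B) (hO : O.transpose = -O) (μ : MvPolynomial (TI n) ℝ)
    (G : TI n → MvPolynomial (TI n) ℝ) (j : ZI n → TI n)
    (h1 : ∀ i, G (j (Sum.inl i)) = - (μ * rT O j i)) (h2 : ∀ i, G (j (Sum.inr i)) = μ * rT O j i)
    (b : ZI n) : dM D μ G (rename j (yP B b)) = 0 := by
  have hD' : ∀ i j, D (B i j) = (O * B) i j := by
    intro i j
    have := congrFun (congrFun hD i) j
    rwa [Matrix.map_apply] at this
  have hh : dM D μ G (C (1 / 2 : ℝ)) = 0 := by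
    rw [dM_C]
    have : D (1 / 2 : ℝ) = 0 := by
      have h3 := D.leibniz (2 : ℝ) (1 / 2 : ℝ)
      rw [mul_one_div_cancel (two_ne_zero), D.map_one_eq_zero] at h3
      have h4 : D (2 : ℝ) = 0 := by
        have : (2 : ℝ) = 1 + 1 := by norm_num
        rw [this, map_add, D.map_one_eq_zero, add_zero]
      rw [h4, smul_zero, add_zero, smul_eq_mul] at h3
      rcases mul_eq_zero.1 h3.symm with h5 | h5
      · exact absurd h5 two_ne_zero
      · exact h5
    rw [this, map_zero, mul_zero]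
  rcases b with i | m
  · have h0 : rename j (yP B (Sum.inl i)) = (X (j (Sum.inl i)) +
        X (j (Sum.inr i))) * C (1 / 2 : ℝ) := by
      show rename j ((X (Sum.inl i) + X (Sum.inr i)) * C (1 / 2)) = _
      rw [map_mul, map_add, rename_X, rename_X, rename_C]
    rw [h0, Derivation.leibniz, hh, map_add, dM_X, dM_X, h1, h2, neg_add_cancel, smul_zero,
      smul_zero, add_zero]
  · have h0 : rename j (yP B (Sum.inr m)) = ∑ i, C (B i m) *
        ((X (j (Sum.inr i)) - X (j (Sum.inl i))) * C (1 / 2 : ℝ)) := by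
      show rename j (∑ i, C (B i m) * ((X (Sum.inr i) - X (Sum.inl i)) * C (1 / 2))) = _
      rw [map_sum]
      refine Finset.sum_congr rfl fun i _ => ?_
      rw [map_mul, map_mul, map_sub, rename_X, rename_X, rename_C, rename_C]
    rw [h0, map_sum]
    have h3 : ∀ i, dM D μ G (C (B i m) *
        ((X (j (Sum.inr i)) - X (j (Sum.inl i))) * C (1 / 2))) =
        μ * (C (B i m) * rT O j i +
          C ((O * B) i m) * ((X (j (Sum.inr i)) - X (j (Sum.inl i))) * C (1 / 2))) := by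
      intro i
      rw [Derivation.leibniz, Derivation.leibniz, hh, dM_C, hD', map_sub, dM_X, dM_X, h1, h2]
      simp only [smul_eq_mul, mul_zero, zero_add, sub_neg_eq_add]
      have h4 : (C (1 / 2 : ℝ) : MvPolynomial (TI n) ℝ) * (μ * rT O j i + μ * rT O j i)
          = μ * rT O j i := by
        rw [← two_mul, ← mul_assoc]
        have : (C (1 / 2 : ℝ) : MvPolynomial (TI n) ℝ) * 2 = 1 := by
          have h5 : (2 : MvPolynomial (TI n) ℝ) = C 2 := (map_ofNat C 2).symm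
          rw [h5, ← C_mul, one_div_mul_cancel two_ne_zero, C_1]
        rw [this, one_mul]
      rw [h4]
      ring
    simp only [h3]
    rw [← Finset.mul_sum, Finset.sum_add_distrib]
    have h6 : ∑ i, C (B i m) * rT O j i = ∑ l, (∑ i, C (B i m) * C (O i l)) *
        ((X (j (Sum.inr l)) - X (j (Sum.inl l))) * C (1 / 2) :
          MvPolynomial (TI n) ℝ) := by
      unfold rT
      simp only [Finset.mul_sum, Finset.sum_mul]
      rw [Finset.sum_comm]
      refine Finset.sum_congr rfl fun l _ => Finset.sum_congr rfl fun i _ => ?_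
      ring
    have h7 : ∀ l, (∑ i, C (B i m) * C (O i l) : MvPolynomial (TI n) ℝ) = - C ((O * B) l m) := by
      intro l
      rw [Matrix.mul_apply, ← map_neg, ← Finset.sum_neg_distrib, map_sum]
      refine Finset.sum_congr rfl fun i _ => ?_
      rw [← C_mul]
      congr 1
      have h8 : O i l = - O l i := by
        have := congrFun (congrFun hO l) i
        simpa [Matrix.transpose_apply] using this
      rw [h8]
      ring
    rw [h6]
    simp only [h7]
    rw [← Finset.sum_add_distrib, Finset.sum_eq_zero, mul_zero]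
    intro i _
    ring

section levels

variable {W : ℕ}

/-- the weights `(1 | W)` of the family T -/
abbrev wT (n : ℕ) (W : ℕ) : TI n → ℕ := wh (Crd n) (ZI n ⊕ ZI n) W

theorem Xinr_mem (b : ZI n ⊕ ZI n) : (X (Sum.inr b) : MvPolynomial (TI n) ℝ) ∈ Vw ℝ (wT n W) W :=
  X_mem_Vw (k := ℝ) (wT n W) (Sum.inr b)

theorem Xinl_mem (b : Crd n) : (X (Sum.inl b) : MvPolynomial (TI n) ℝ) ∈ Vw ℝ (wT n W) 1 :=
  X_mem_Vw (k := ℝ) (wT n W) (Sum.inl b)

theorem muT_mem : (muT : MvPolynomial (TI n) ℝ) ∈ Vw ℝ (wT n W) W :=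
  Submodule.sub_mem _ (Xinr_mem _) (Xinr_mem _)

theorem rT_mem (O : Matrix (Fin (n + 1)) (Fin (n + 1)) ℝ) (j : ZI n → ZI n ⊕ ZI n)
    (i : Fin (n + 1)) : rT O (fun b => Sum.inr (j b)) i ∈ Vw ℝ (wT n W) W := by
  unfold rT
  refine Submodule.sum_mem _ fun l _ => ?_
  have h3 := mul_mem_Vw (wT n W) (C_mem_Vw (k := ℝ) (wT n W) (O i l) 0)
    (mul_mem_Vw (wT n W) (Submodule.sub_mem _ (Xinr_mem (W := W) (j (Sum.inr l)))
      (Xinr_mem (W := W) (j (Sum.inl l)))) (C_mem_Vw (wT n W) (1 / 2 : ℝ) 0))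
  simpa using h3

theorem rT_js_mem (O : Matrix (Fin (n + 1)) (Fin (n + 1)) ℝ) (i : Fin (n + 1)) :
    rT O js i ∈ Vw ℝ (wT n W) W := rT_mem O Sum.inl i

theorem rT_jr_mem (O : Matrix (Fin (n + 1)) (Fin (n + 1)) ℝ) (i : Fin (n + 1)) :
    rT O jr i ∈ Vw ℝ (wT n W) W := rT_mem O Sum.inr i

theorem dzT_mem (O : Matrix (Fin (n + 1)) (Fin (n + 1)) ℝ) (i : Fin (n + 1)) :
    dzT O i ∈ Vw ℝ (wT n W) W := Submodule.sub_mem _ (rT_jr_mem O i) (rT_js_mem O i)

theorem duT_mem (O : Matrix (Fin (n + 1)) (Fin (n + 1)) ℝ) (i : Fin n) :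
    duT O i ∈ Vw ℝ (wT n W) (W + 1) := by
  unfold duT
  refine Submodule.sub_mem _ (Vw_mono _ (by omega) (dzT_mem O _)) ?_
  rw [add_comm]
  exact mul_mem_Vw _ (Xinl_mem _) (dzT_mem O 0)

theorem GT_mem (O : Matrix (Fin (n + 1)) (Fin (n + 1)) ℝ) (hW : 1 ≤ W) (x : TI n) :
    GT O x ∈ Vw ℝ (wT n W) (3 * W) := by
  have hmr : ∀ i, muT * rT O js i ∈ Vw ℝ (wT n W) (W + W) := fun i =>
    mul_mem_Vw _ muT_mem (rT_js_mem O i)
  have hmr' : ∀ i, muT * rT O jr i ∈ Vw ℝ (wT n W) (W + W) := fun i =>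
    mul_mem_Vw _ muT_mem (rT_jr_mem O i)
  rcases x with (i | i | i) | (i | i) | (i | i)
  · exact Vw_mono _ (by omega) (duT_mem O i)
  · unfold GT
    refine Submodule.sub_mem _ (Submodule.add_mem _ (Submodule.neg_mem _ ?_) ?_) ?_
    · exact Vw_mono _ (by omega) (hmr _)
    · exact Vw_mono _ (by omega) (mul_mem_Vw _ (hmr 0) (Xinl_mem _))
    · exact Vw_mono _ (by omega) (mul_mem_Vw _ (Xinr_mem _) (duT_mem O i))
  · unfold GT
    refine Submodule.sub_mem _ (Submodule.neg_mem _ (Vw_mono _ (by omega) (hmr 0)))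
      (Submodule.sum_mem _ fun i _ => Submodule.add_mem _ ?_ ?_)
    · exact Vw_mono _ (by omega) (mul_mem_Vw _ (hmr _) (Xinl_mem _))
    · exact Vw_mono _ (by omega) (mul_mem_Vw _ (Xinr_mem _) (duT_mem O i))
  · exact Submodule.neg_mem _ (Vw_mono _ (by omega) (hmr _))
  · exact Vw_mono _ (by omega) (hmr i)
  · exact Submodule.neg_mem _ (Vw_mono _ (by omega) (hmr' _))
  · exact Vw_mono _ (by omega) (hmr' i)

end levels

/-- all data of the family T at one edge which [AD] needs -/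
structure TGood {c : ℕ} (n W N : ℕ) (E : Finset (ZZ n × ZZ n)) (Ft : Fin c → MvPolynomial (TI n) ℝ)
    (e : ZZ n × ZZ n) : Prop where
  hW : 1 ≤ W
  he : e ∈ E
  hne : ∀ e' ∈ E, e'.1.1 0 ≠ e'.2.1 0
  hlev : ∀ i, Ft i ∈ Vw ℝ (wT n W) N
  hzero : ∀ e' ∈ E, ∀ i, eval (edgePt e'.1 e'.2) (Ft i) = 0
  hind : LinearIndependent ℝ (fun i => grad (edgePt e.1 e.2) (Ft i))
  hgood : ∀ F ∈ Vw ℝ (wT n W) (N + 3 * W), (∀ e' ∈ E, eval (edgePt e'.1 e'.2) F = 0) →
    F ∈ germ (edgePt e.1 e.2) Ft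

variable {c : ℕ} {W N : ℕ} {E : Finset (ZZ n × ZZ n)} {Ft : Fin c → MvPolynomial (TI n) ℝ}
  {e : ZZ n × ZZ n}

theorem TGood.cD_mem (H : TGood n W N E Ft e) (δ : Derivation k ℝ ℝ)
    {B : Matrix (Fin (n + 1)) (Fin (n + 1)) ℝ} (hB : B * B.transpose = 1)
    (hE : ∀ e' ∈ E, (∃ r : ZZ n, e'.1 = zB B r ∧ (∀ j, δ (r.1 j) = 0) ∧ ∀ j, δ (r.2 j) = 0) ∧
      ∃ r : ZZ n, e'.2 = zB B r ∧ (∀ j, δ (r.1 j) = 0) ∧ ∀ j, δ (r.2 j) = 0)
    {β : Type*} (ι : MvPolynomial β ℝ →ₐ[ℝ] MvPolynomial (TI n) ℝ)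
    (hι : ∀ b, (∃ a, ι (X b) = rename js (yP B a)) ∨ ∃ a, ι (X b) = rename jr (yP B a))
    {h : MvPolynomial β ℝ} (hh : ι h ∈ germ (edgePt e.1 e.2) Ft) :
    ι (cD δ h) ∈ germ (edgePt e.1 e.2) Ft := by
  have hW := H.hW
  set O : Matrix (Fin (n + 1)) (Fin (n + 1)) ℝ := B.map δ * B.transpose with hO
  have hDB : B.map δ = O * B := der_eq_mul δ hB
  have hOs : O.transpose = -O := der_skew δ hB
  have hmove : ∀ e' ∈ E, ∀ x, eval (edgePt e'.1 e'.2) muT * δ (edgePt e'.1 e'.2 x) =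
      eval (edgePt e'.1 e'.2) (GT O x) := by
    intro e' he' x
    obtain ⟨⟨p, hp, hp1, hp2⟩, ⟨q, hq, hq1, hq2⟩⟩ := hE e' he'
    refine eval_GT δ O e'.1 e'.2 (fun i => ?_) (fun i => ?_) (H.hne e' he') x
    · rw [hp]; exact der_zB δ B O hDB p hp1 hp2 i
    · rw [hq]; exact der_zB δ B O hDB q hq1 hq2 i
  have hfilt : IsFilt (Vw ℝ (wT n W)) := by
    refine isFilt_Vw _ fun i => ?_
    rcases i with i | i
    · exact one_ne_zero
    · show W ≠ 0; omega
  have hf : ∀ i, dM δ muT (GT O) (Ft i) ∈ germ (edgePt e.1 e.2) Ft := by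
    intro i
    refine dM_mem_germ_of_good hfilt δ muT (GT O)
      (fun i m F hF => Vw_mono _ (Nat.sub_le _ _) (pderiv_mem_Vw _ hF i))
      (fun m F hF => cD_mem_Vw δ _ hF) (δ := 3 * W) (Vw_mono _ (by omega) muT_mem)
      (GT_mem O hW) (E := {e' : ZZ n × ZZ n | e' ∈ E})
      (pt := fun e' => edgePt e'.1 e'.2) (fun e' he' x => hmove e' he' x) Ft
      (N := N) H.hlev (fun e' he' i => H.hzero e' he' i) ?_ i
    intro F hF hF0
    exact H.hgood F hF fun e' h1 => hF0 e' h1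
  have hmu : eval (edgePt e.1 e.2) muT ≠ 0 := by
    rw [eval_muT]
    exact sub_ne_zero.2 (H.hne e H.he)
  refine cD_mem_comap' (H.hzero e H.he) H.hind (hmove e H.he) hmu hf ι (fun b => ?_) hh
  rcases hι b with ⟨a, ha⟩ | ⟨a, ha⟩
  · rw [ha]
    exact dM_yP_block δ B O hDB hOs muT (GT O) js (fun i => rfl) (fun i => rfl) a
  · rw [ha]
    exact dM_yP_block δ B O hDB hOs muT (GT O) jr (fun i => rfl) (fun i => rfl) a

/-- the prime of `s` on the germ of the family T -/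
noncomputable def PTs (e : ZZ n × ZZ n) (Ft : Fin c → MvPolynomial (TI n) ℝ) :
    Ideal (MvPolynomial (ZI n) ℝ) := (germ (edgePt e.1 e.2) Ft).comap (rename (R := ℝ) js)

/-- the prime of `r` on the germ of the family T -/
noncomputable def PTr (e : ZZ n × ZZ n) (Ft : Fin c → MvPolynomial (TI n) ℝ) :
    Ideal (MvPolynomial (ZI n) ℝ) := (germ (edgePt e.1 e.2) Ft).comap (rename (R := ℝ) jr)

/-- **[AD-T] for `r`** -/
theorem TGood.cD_mem_r (H : TGood n W N E Ft e) (δ : Derivation k ℝ ℝ)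
    {B : Matrix (Fin (n + 1)) (Fin (n + 1)) ℝ} (hB : B * B.transpose = 1)
    (hE : ∀ e' ∈ E, (∃ r : ZZ n, e'.1 = zB B r ∧ (∀ j, δ (r.1 j) = 0) ∧ ∀ j, δ (r.2 j) = 0) ∧
      ∃ r : ZZ n, e'.2 = zB B r ∧ (∀ j, δ (r.1 j) = 0) ∧ ∀ j, δ (r.2 j) = 0)
    {h : MvPolynomial (ZI n) ℝ} (hh : chg B h ∈ PTr e Ft) : chg B (cD δ h) ∈ PTr e Ft :=
  H.cD_mem δ hB hE ((rename jr).comp (chg B)) (fun b => Or.inr ⟨b, by
    rw [AlgHom.comp_apply, chg_X]⟩) hh

/-- **[AD-T] for `s`** -/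
theorem TGood.cD_mem_s (H : TGood n W N E Ft e) (δ : Derivation k ℝ ℝ)
    {B : Matrix (Fin (n + 1)) (Fin (n + 1)) ℝ} (hB : B * B.transpose = 1)
    (hE : ∀ e' ∈ E, (∃ r : ZZ n, e'.1 = zB B r ∧ (∀ j, δ (r.1 j) = 0) ∧ ∀ j, δ (r.2 j) = 0) ∧
      ∃ r : ZZ n, e'.2 = zB B r ∧ (∀ j, δ (r.1 j) = 0) ∧ ∀ j, δ (r.2 j) = 0)
    {h : MvPolynomial (ZI n) ℝ} (hh : chg B h ∈ PTs e Ft) : chg B (cD δ h) ∈ PTs e Ft :=
  H.cD_mem δ hB hE ((rename js).comp (chg B)) (fun b => Or.inl ⟨b, by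
    rw [AlgHom.comp_apply, chg_X]⟩) hh

/-- polynomials in `(y, y')` of `s` and of `r` as polynomials in `(g, s, r)` -/
noncomputable def chg2 (B : Matrix (Fin (n + 1)) (Fin (n + 1)) ℝ) :
    MvPolynomial (ZI n ⊕ ZI n) ℝ →ₐ[ℝ] MvPolynomial (TI n) ℝ :=
  aeval (Sum.elim (fun b => rename js (yP B b)) (fun b => rename jr (yP B b)))

/-- **[AD-T] for the pair `(s, r)`** -/
theorem TGood.cD_mem_sr (H : TGood n W N E Ft e) (δ : Derivation k ℝ ℝ)
    {B : Matrix (Fin (n + 1)) (Fin (n + 1)) ℝ} (hB : B * B.transpose = 1)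
    (hE : ∀ e' ∈ E, (∃ r : ZZ n, e'.1 = zB B r ∧ (∀ j, δ (r.1 j) = 0) ∧ ∀ j, δ (r.2 j) = 0) ∧
      ∃ r : ZZ n, e'.2 = zB B r ∧ (∀ j, δ (r.1 j) = 0) ∧ ∀ j, δ (r.2 j) = 0)
    {h : MvPolynomial (ZI n ⊕ ZI n) ℝ} (hh : chg2 B h ∈ germ (edgePt e.1 e.2) Ft) :
    chg2 B (cD δ h) ∈ germ (edgePt e.1 e.2) Ft := by
  refine H.cD_mem δ hB hE (chg2 B) (fun b => ?_) hh
  rcases b with b | b
  · left; exact ⟨b, by unfold chg2; rw [aeval_X]; rfl⟩
  · right; exact ⟨b, by unfold chg2; rw [aeval_X]; rfl⟩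

/-- an ideal stable under the coefficientwise derivations (in the coordinates `(y, y')`) is spanned,
inside every stable subspace, by polynomials with constant coefficients -/
theorem stable_span {𝔇 : Type*} (δ : 𝔇 → Derivation k ℝ ℝ)
    {B : Matrix (Fin (n + 1)) (Fin (n + 1)) ℝ} (Q : Ideal (MvPolynomial (ZI n) ℝ))
    (hst : ∀ a h, chg B h ∈ Q → chg B (cD (δ a) h) ∈ Q)
    (U : Submodule ℝ (MvPolynomial (ZI n) ℝ)) (hU : ∀ a, ∀ w ∈ U, cD (δ a) w ∈ U)
    {h : MvPolynomial (ZI n) ℝ} (hh : chg B h ∈ Q) (hhU : h ∈ U) :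
    h ∈ Submodule.span ℝ {w : MvPolynomial (ZI n) ℝ | chg B w ∈ Q ∧ w ∈ U ∧
      ∀ a m, δ a (coeff m w) = 0} := by
  let Q' : Submodule ℝ (MvPolynomial (ZI n) ℝ) := ((Q.comap (chg B)).restrictScalars ℝ) ⊓ U
  have h1 := mem_span_const_poly δ Q' (fun a w hw => ⟨hst a w hw.1, hU a w hw.2⟩) h ⟨hh, hhU⟩
  refine Submodule.span_mono ?_ h1
  rintro w ⟨hw1, hw2⟩
  exact ⟨hw1.1, hw1.2, hw2⟩

end Vale.Agent.P054.T2.H455
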