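import Vale.Agent.P054.T2.H455.Sep

/-!
# P054 / T2: the final count on one leaf

`R` = the space of pairs (coordinates `σ`), `ζ : (σ → K) → (Fin (m+1) → K)` linear, `u(r)` = the
affine coordinates of the direction of `ζ (r - s)`: `ζ (r - s) = λ (1, u)`.
* `fc_linear`: `r - s ∈ w + V₂`, `ζ` injective on `V₂ + K w`, `w ∉ V₂`: degree 1;
* `fc_stereo`: `ζ` bijective on `V₂`, `r - s' ∈ V₂`, `ζ s' = ζ s`, `Q (r - s) = 0`: degree 2.
-/

open MvPolynomial Module Finset

namespace Vale.Agent.P054.T2.H455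

variable {K : Type*} [Field K] {ι σ : Type*} {m : ℕ}

/-- pairs: separation of a product -/
theorem sep_pairs {ρ : Type*} {P : Finset (σ → K)} {P' : Finset (ρ → K)} {N N' : ℕ}
    (h : Sep (fun x : σ → K => x) N P) (h' : Sep (fun x : ρ → K => x) N' P')
    (A : Finset ((σ → K) × (ρ → K))) (hA : ∀ a ∈ A, a.1 ∈ P ∧ a.2 ∈ P') :
    Sep (fun a : (σ → K) × (ρ → K) => Sum.elim a.1 a.2) (N + N') A := by
  classical
  intro a ha
  obtain ⟨F, h1, h2, h3⟩ := h a.1 (hA a ha).1
  obtain ⟨F', h1', h2', h3'⟩ := h' a.2 (hA a ha).2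
  refine ⟨rename Sum.inl F * rename Sum.inr F', ?_, ?_, ?_⟩
  · refine (totalDegree_mul _ _).trans (add_le_add ?_ ?_)
    · exact (totalDegree_rename_le _ _).trans h1
    · exact (totalDegree_rename_le _ _).trans h1'
  · rw [map_mul, eval_rename, eval_rename]
    exact mul_ne_zero (by simpa [Function.comp_def] using h2) (by simpa [Function.comp_def] using h2')
  · intro b hb hba
    rw [map_mul, eval_rename, eval_rename]
    simp only [Function.comp_def, Sum.elim_inl, Sum.elim_inr]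
    by_cases hb1 : b.1 = a.1
    · have hb2 : b.2 ≠ a.2 := fun hh => hba (Prod.ext hb1 hh)
      rw [h3' b.2 (hA b hb).2 hb2, mul_zero]
    · rw [h3 b.1 (hA b hb).1 hb1, zero_mul]

/-- the polynomial `∑ j, L j * (1, u) j` of a linear form on `K^(m+1)` -/
noncomputable def lin (L : (Fin (m + 1) → K) →ₗ[K] K) : MvPolynomial (Fin m) K :=
  C (L (Pi.single 0 1)) + ∑ j : Fin m, C (L (Pi.single j.succ 1)) * X j

theorem lin_deg (L : (Fin (m + 1) → K) →ₗ[K] K) : (lin L).totalDegree ≤ 1 := by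
  unfold lin
  refine (totalDegree_add _ _).trans (max_le ?_ ?_)
  · rw [totalDegree_C]; exact Nat.zero_le _
  · refine (totalDegree_finsetSum _ _).trans (Finset.sup_le fun j _ => ?_)
    refine (totalDegree_mul _ _).trans ?_
    rw [totalDegree_C, zero_add, totalDegree_X]

theorem lin_eval (L : (Fin (m + 1) → K) →ₗ[K] K) (u : Fin m → K) :
    eval u (lin L) = L (Fin.cons 1 u) := by
  unfold lin
  have h1 : (Fin.cons 1 u : Fin (m + 1) → K) =
      Pi.single 0 1 + ∑ j : Fin m, u j • (Pi.single j.succ 1 : Fin (m + 1) → K) := by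
    funext i
    refine Fin.cases ?_ (fun i => ?_) i
    · simp [Finset.sum_apply, (Fin.succ_ne_zero _).symm]
    · simp [Finset.sum_apply, Pi.single_apply, Fin.succ_ne_zero, Fin.succ_inj]
  rw [h1, map_add, map_sum, map_add, map_sum, eval_C]
  congr 1
  refine Finset.sum_congr rfl fun j _ => ?_
  rw [map_mul, eval_C, eval_X, map_smul, smul_eq_mul, mul_comm]

/-- **linear section** -/
theorem fc_linear (ζ : (σ → K) →ₗ[K] (Fin (m + 1) → K)) (V : Submodule K (σ → K)) (s w : σ → K)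
    (hw : w ∉ V) (hinj : ∀ x ∈ V ⊔ K ∙ w, ζ x = 0 → x = 0)
    (A : Finset ι) (r : ι → (σ → K)) (u : ι → (Fin m → K))
    (hr : ∀ i ∈ A, r i - s - w ∈ V)
    (hu : ∀ i ∈ A, ∃ c : K, ζ (r i - s) = c • (Fin.cons 1 (u i) : Fin (m + 1) → K))
    {N : ℕ} (hsep : Sep r N A) : Sep u N A := by
  classical
  -- a left inverse of `ζ` on `V + K w`
  set W := V ⊔ K ∙ w with hW
  have hker : LinearMap.ker (ζ.comp W.subtype) = ⊥ := by
    rw [LinearMap.ker_eq_bot']
    intro x hx
    exact Subtype.ext (hinj x.1 x.2 hx)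
  obtain ⟨Φ₀, hΦ₀⟩ := (ζ.comp W.subtype).exists_leftInverse_of_injective hker
  set Φ : (Fin (m + 1) → K) →ₗ[K] (σ → K) := W.subtype.comp Φ₀ with hΦ
  have hΦζ : ∀ x ∈ W, Φ (ζ x) = x := by
    intro x hx
    have := LinearMap.congr_fun hΦ₀ ⟨x, hx⟩
    simp only [LinearMap.comp_apply, Submodule.subtype_apply, LinearMap.id_apply] at this
    simp only [hΦ, LinearMap.comp_apply, Submodule.subtype_apply, this]
  -- a functional with value 1 at `w`, zero on `V`
  obtain ⟨ℓ₀, hℓ1, hℓ2⟩ := Submodule.exists_le_ker_of_notMem hw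
  have hcw : ℓ₀ w ≠ 0 := hℓ1
  set L : (Fin (m + 1) → K) →ₗ[K] K := (ℓ₀ w)⁻¹ • (ℓ₀.comp Φ) with hL
  have hLr : ∀ i ∈ A, L (ζ (r i - s)) = 1 := by
    intro i hi
    have hmem : r i - s ∈ W := by
      have h1 : r i - s = (r i - s - w) + w := by abel
      rw [h1]
      exact W.add_mem ((le_sup_left : V ≤ W) (hr i hi))
        ((le_sup_right : (K ∙ w) ≤ W) (Submodule.mem_span_singleton_self w))
    have h2 : ℓ₀ (r i - s) = ℓ₀ w := by
      have h3 : ℓ₀ (r i - s - w) = 0 := hℓ2 (hr i hi)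
      rw [map_sub] at h3
      exact sub_eq_zero.mp h3
    simp only [hL, LinearMap.smul_apply, LinearMap.comp_apply, hΦζ _ hmem, h2, smul_eq_mul]
    exact inv_mul_cancel₀ hcw
  have key : ∀ i ∈ A, L (Fin.cons 1 (u i)) ≠ 0 ∧
      L (Fin.cons 1 (u i)) • (r i - s) = Φ (Fin.cons 1 (u i)) := by
    intro i hi
    obtain ⟨c, hc⟩ := hu i hi
    have h1 := hLr i hi
    rw [hc, map_smul, smul_eq_mul] at h1
    have hmem : r i - s ∈ W := by
      have h1 : r i - s = (r i - s - w) + w := by abel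
      rw [h1]
      exact W.add_mem ((le_sup_left : V ≤ W) (hr i hi))
        ((le_sup_right : (K ∙ w) ≤ W) (Submodule.mem_span_singleton_self w))
    have h2 := hΦζ _ hmem
    rw [hc, map_smul] at h2
    refine ⟨fun h0 => ?_, ?_⟩
    · rw [h0, mul_zero] at h1
      exact zero_ne_one h1
    · rw [← h2, smul_smul, mul_comm, h1, one_smul]
  have h := Sep.pullback (k := 1) (q := lin L)
    (Ψ := fun a => C (s a) * lin L + lin ((LinearMap.proj a).comp Φ)) (u := u) (lin_deg L)
    (fun a => by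
      refine (totalDegree_add _ _).trans (max_le ?_ (lin_deg _))
      refine (totalDegree_mul _ _).trans ?_
      rw [totalDegree_C, zero_add]
      exact lin_deg L)
    (fun i hi => by
      rw [lin_eval]
      exact (key i hi).1)
    (fun i hi a => by
      rw [map_add, map_mul, eval_C, lin_eval, lin_eval, LinearMap.comp_apply,
        ← (key i hi).2]
      simp only [LinearMap.proj_apply, Pi.smul_apply, Pi.sub_apply, smul_eq_mul]
      ring) hsep
  rwa [one_mul] at h

/-- `(1, u) j` as a polynomial -/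
noncomputable def xv (j : Fin (m + 1)) : MvPolynomial (Fin m) K :=
  Fin.cases 1 (fun j => X j) j

theorem xv_eval (j : Fin (m + 1)) (u : Fin m → K) :
    eval u (xv j : MvPolynomial (Fin m) K) = (Fin.cons 1 u : Fin (m + 1) → K) j := by
  refine Fin.cases ?_ (fun j => ?_) j
  · simp [xv]
  · simp [xv]

theorem xv_deg (j : Fin (m + 1)) : (xv j : MvPolynomial (Fin m) K).totalDegree ≤ 1 := by
  refine Fin.cases ?_ (fun j => ?_) j
  · simp [xv]
  · simp [xv]

/-- `B (Φ v) (Φ v)`, `v = (1, u)` -/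
noncomputable def quadP (B : (σ → K) →ₗ[K] (σ → K) →ₗ[K] K)
    (Φ : (Fin (m + 1) → K) →ₗ[K] (σ → K)) : MvPolynomial (Fin m) K :=
  ∑ j, xv j * lin ((B (Φ (Pi.single j 1))).comp Φ)

theorem quadP_deg (B : (σ → K) →ₗ[K] (σ → K) →ₗ[K] K)
    (Φ : (Fin (m + 1) → K) →ₗ[K] (σ → K)) : (quadP B Φ).totalDegree ≤ 2 := by
  unfold quadP
  refine (totalDegree_finsetSum _ _).trans (Finset.sup_le fun j _ => ?_)
  exact (totalDegree_mul _ _).trans (add_le_add (xv_deg j) (lin_deg _))

theorem quadP_eval (B : (σ → K) →ₗ[K] (σ → K) →ₗ[K] K)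
    (Φ : (Fin (m + 1) → K) →ₗ[K] (σ → K)) (u : Fin m → K) :
    eval u (quadP B Φ) = B (Φ (Fin.cons 1 u)) (Φ (Fin.cons 1 u)) := by
  have h := LinearMap.pi_apply_eq_sum_univ ((B.comp Φ).flip (Φ (Fin.cons 1 u)))
    (Fin.cons 1 u : Fin (m + 1) → K)
  simp only [LinearMap.flip_apply, LinearMap.comp_apply] at h
  rw [h]
  unfold quadP
  rw [map_sum]
  refine Finset.sum_congr rfl fun j _ => ?_
  rw [map_mul, xv_eval, lin_eval, LinearMap.comp_apply, smul_eq_mul]
  have h3 : (fun k => if j = k then (1 : K) else 0) = Pi.single j 1 := by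
    funext k
    rw [Pi.single_apply]
    simp [eq_comm]
  rw [h3]

/-- **stereographic projection**: `B` the bilinear form of `Q`, `Q x = B x x` -/
theorem fc_stereo (h2 : (2 : K) ≠ 0) (ζ : (σ → K) →ₗ[K] (Fin (m + 1) → K))
    (B : (σ → K) →ₗ[K] (σ → K) →ₗ[K] K) (hB : ∀ x y, B x y = B y x)
    (hzero : ∀ x, ζ x = 0 → B x x = 0)
    (V : Submodule K (σ → K)) (s s' : σ → K) (hss : ζ s' = ζ s)
    (hinj : ∀ x ∈ V, ζ x = 0 → x = 0)
    (A : Finset ι) (r : ι → (σ → K)) (u : ι → (Fin m → K))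
    (hr : ∀ i ∈ A, r i - s' ∈ V)
    (hQ : ∀ i ∈ A, B (r i - s) (r i - s) = 0)
    (hne : ∀ i ∈ A, B (s' - s) (r i - s') ≠ 0)
    (hu : ∀ i ∈ A, ∃ c : K, ζ (r i - s) = c • (Fin.cons 1 (u i) : Fin (m + 1) → K))
    {N : ℕ} (hsep : Sep r N A) : Sep u (2 * N) A := by
  classical
  have hker : LinearMap.ker (ζ.comp V.subtype) = ⊥ := by
    rw [LinearMap.ker_eq_bot']
    intro x hx
    exact Subtype.ext (hinj x.1 x.2 hx)
  obtain ⟨Φ₀, hΦ₀⟩ := (ζ.comp V.subtype).exists_leftInverse_of_injective hker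
  set Φ : (Fin (m + 1) → K) →ₗ[K] (σ → K) := V.subtype.comp Φ₀ with hΦ
  have hΦζ : ∀ x ∈ V, Φ (ζ x) = x := by
    intro x hx
    have := LinearMap.congr_fun hΦ₀ ⟨x, hx⟩
    simp only [LinearMap.comp_apply, Submodule.subtype_apply, LinearMap.id_apply] at this
    simp only [hΦ, LinearMap.comp_apply, Submodule.subtype_apply, this]
  set L : (Fin (m + 1) → K) →ₗ[K] K := (-2 : K) • ((B (s' - s)).comp Φ) with hL
  -- the quadratic polynomial `B (Φ v) (Φ v)`, `v = (1, u)`
  set q : MvPolynomial (Fin m) K := quadP B Φ with hq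
  have hs0 : B (s' - s) (s' - s) = 0 := hzero _ (by rw [map_sub, hss, sub_self])
  have key : ∀ i ∈ A, eval (u i) q ≠ 0 ∧
      eval (u i) q • (r i - s') = L (Fin.cons 1 (u i)) • Φ (Fin.cons 1 (u i)) := by
    intro i hi
    obtain ⟨c, hc⟩ := hu i hi
    set v : Fin (m + 1) → K := Fin.cons 1 (u i) with hv
    have hζ : ζ (r i - s') = c • v := by
      rw [← hc, map_sub, map_sub, hss]
    have hx : r i - s' = c • Φ v := by
      rw [← hΦζ _ (hr i hi), hζ, map_smul]
    have hsplit : r i - s = (s' - s) + (r i - s') := by abel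
    have hQi := hQ i hi
    rw [hsplit] at hQi
    simp only [map_add, LinearMap.add_apply] at hQi
    rw [hs0, hB (r i - s') (s' - s), zero_add] at hQi
    have hnei := hne i hi
    rw [hx, map_smul, smul_eq_mul] at hnei
    have hc0 : c ≠ 0 := left_ne_zero_of_mul hnei
    have hb0 : B (s' - s) (Φ v) ≠ 0 := right_ne_zero_of_mul hnei
    rw [hx] at hQi
    simp only [map_smul, LinearMap.smul_apply, smul_eq_mul] at hQi
    have h3 : c * (2 * B (s' - s) (Φ v) + c * B (Φ v) (Φ v)) = 0 := by linear_combination hQi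
    have h4 := (mul_eq_zero.mp h3).resolve_left hc0
    have hqe : eval (u i) q = B (Φ v) (Φ v) := quadP_eval B Φ (u i)
    have hLe : L v = c * B (Φ v) (Φ v) := by
      simp only [hL, LinearMap.smul_apply, LinearMap.comp_apply, smul_eq_mul]
      linear_combination -h4
    refine ⟨fun h0 => ?_, ?_⟩
    · rw [hqe] at h0
      rw [h0, mul_zero, add_zero] at h4
      exact hb0 ((mul_eq_zero.mp h4).resolve_left h2)
    · rw [hqe, hLe, hx, smul_smul, mul_comm]
  refine Sep.pullback (k := 2) (q := q)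
    (Ψ := fun a => C (s' a) * q + lin L * lin ((LinearMap.proj a).comp Φ)) (u := u)
    (quadP_deg B Φ)
    (fun a => by
      refine (totalDegree_add _ _).trans (max_le ?_ ?_)
      · refine (totalDegree_mul _ _).trans ?_
        rw [totalDegree_C, zero_add]
        exact quadP_deg B Φ
      · exact (totalDegree_mul _ _).trans (add_le_add (lin_deg _) (lin_deg _)))
    (fun i hi => (key i hi).1)
    (fun i hi a => ?_) hsep
  have h5 := congrFun (key i hi).2 a
  simp only [Pi.smul_apply, Pi.sub_apply, smul_eq_mul] at h5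
  rw [map_add, map_mul, map_mul, eval_C, lin_eval, lin_eval, LinearMap.comp_apply,
    LinearMap.proj_apply, ← h5]
  ring

end Vale.Agent.P054.T2.H455
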