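import Vale.Agent.P054.T2.H455.FC

/-!
# P054 / T2: polynomials restricted to an affine graph

If `g i = (affine function of u i)` and `u i` is a part of the coordinates of `g i`, then the ranks
of the evaluations at the `g i` and at the `u i` on polynomials of degree `≤ N` agree.
-/

open MvPolynomial Module Finset

namespace Vale.Agent.P054.T2.H455

variable {K : Type*} [Field K] {ι σ τ : Type*} {m : ℕ}

theorem rk_map_inj {V V' : Type*} [AddCommGroup V] [Module K V] [AddCommGroup V'] [Module K V']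
    (f : V →ₗ[K] V') (hf : Function.Injective f) (v : ι → V) (E : Finset ι) :
    H580.rk K (fun i => f (v i)) E = H580.rk K v E := by
  unfold H580.rk
  have h1 : (fun i => f (v i)) '' (E : Set ι) = f '' (v '' (E : Set ι)) := by
    rw [Set.image_image]
  rw [h1, ← Submodule.map_span]
  exact (Submodule.equivMapOfInjective f hf _).finrank_eq.symm

theorem rk_map_le {V V' : Type*} [AddCommGroup V] [Module K V] [AddCommGroup V'] [Module K V']
    (f : V →ₗ[K] V') (v : ι → V) (E : Finset ι) :
    H580.rk K (fun i => f (v i)) E ≤ H580.rk K v E := by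
  unfold H580.rk
  have h1 : (fun i => f (v i)) '' (E : Set ι) = f '' (v '' (E : Set ι)) := by
    rw [Set.image_image]
  rw [h1, ← Submodule.map_span]
  exact Submodule.finrank_map_le f _

theorem totalDegree_bind_le {k : ℕ} {Ψ : σ → MvPolynomial τ K} (hΨ : ∀ a, (Ψ a).totalDegree ≤ k)
    (F : MvPolynomial σ K) {N : ℕ} (hF : F.totalDegree ≤ N) :
    (bind₁ Ψ F).totalDegree ≤ k * N := by
  classical
  have h1 : bind₁ Ψ F = ∑ m ∈ F.support, C (F.coeff m) * m.prod fun a e => Ψ a ^ e := by
    rw [bind₁, aeval_def, eval₂_eq]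
    rfl
  rw [h1]
  refine (totalDegree_finsetSum _ _).trans (Finset.sup_le fun m hm => ?_)
  have h2 : (m.sum fun _ e => e) ≤ N := (le_totalDegree hm).trans hF
  have h3 := deg_prod (q := (1 : MvPolynomial τ K)) (k := k) (N := m.sum fun _ e => e)
    (by simp) hΨ m le_rfl (F.coeff m)
  simp only [Nat.sub_self, pow_zero, mul_one] at h3
  exact h3.trans (Nat.mul_le_mul_left _ h2)

/-- composition with a polynomial map of degree `≤ 1`, on polynomials of degree `≤ N` -/
noncomputable def compV (N : ℕ) (Ψ : σ → MvPolynomial τ K) (hΨ : ∀ a, (Ψ a).totalDegree ≤ 1) :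
    restrictTotalDegree σ K N →ₗ[K] restrictTotalDegree τ K N :=
  ((bind₁ Ψ).toLinearMap.comp (restrictTotalDegree σ K N).subtype).codRestrict _ fun F => by
    rw [mem_restrictTotalDegree]
    have := totalDegree_bind_le hΨ F.1 ((mem_restrictTotalDegree _ _ _).mp F.2)
    simpa using this

theorem compV_coe (N : ℕ) (Ψ : σ → MvPolynomial τ K) (hΨ : ∀ a, (Ψ a).totalDegree ≤ 1)
    (F : restrictTotalDegree σ K N) : (compV N Ψ hΨ F : MvPolynomial τ K) = bind₁ Ψ F.1 := rfl

theorem evN_compV (N : ℕ) (Ψ : σ → MvPolynomial τ K) (hΨ : ∀ a, (Ψ a).totalDegree ≤ 1)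
    (g : σ → K) (u : τ → K) (hg : ∀ a, g a = eval u (Ψ a)) :
    evN N g = (compV N Ψ hΨ).dualMap (evN N u) := by
  ext F
  rw [LinearMap.dualMap_apply, evN_apply, evN_apply, compV_coe]
  have h1 : g = fun a => eval u (Ψ a) := funext hg
  rw [h1]
  rw [bind₁, aeval_def, eval₂_eq_eval_map, ← eval₂_eq_eval_map]
  rw [show (eval u) (eval₂ (algebraMap K (MvPolynomial τ K)) Ψ F.1) =
    eval₂ ((eval u).comp (algebraMap K (MvPolynomial τ K))) (fun a => eval u (Ψ a)) F.1 from
    eval₂_comp_left _ _ _ _]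
  have h2 : (eval u).comp (algebraMap K (MvPolynomial τ K)) = RingHom.id K := by
    ext x
    simp
  rw [h2]
  rfl

/-- **rank on an affine graph** -/
theorem rk_graph (N : ℕ) (Ψ : σ → MvPolynomial τ K) (hΨ : ∀ a, (Ψ a).totalDegree ≤ 1)
    (e : τ → σ) (he : ∀ b, Ψ (e b) = X b) (A : Finset ι) (g : ι → (σ → K)) (u : ι → (τ → K))
    (hg : ∀ i, ∀ a, g i a = eval (u i) (Ψ a)) :
    H580.rk K (fun i => evN N (g i)) A = H580.rk K (fun i => evN N (u i)) A := by
  have h1 : (fun i => evN N (g i)) = fun i => (compV N Ψ hΨ).dualMap (evN N (u i)) :=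
    funext fun i => evN_compV N Ψ hΨ (g i) (u i) (hg i)
  rw [h1]
  refine rk_map_inj _ ?_ _ _
  rw [LinearMap.dualMap_injective_iff]
  intro F
  refine ⟨compV N (fun b => X (e b)) (fun b => (totalDegree_X _).le) F, ?_⟩
  apply Subtype.ext
  rw [compV_coe, compV_coe]
  have h2 : (bind₁ Ψ) ((bind₁ fun b => X (e b)) F.1) = F.1 := by
    rw [bind₁_bind₁]
    have h3 : (fun i => (bind₁ Ψ) (X (e i))) = (X : τ → MvPolynomial τ K) := by
      funext b
      rw [bind₁_X_right, he]
    rw [h3]
    simp
  exact h2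

/-- points `g i` with `u i` among the coordinates: separation of the `u i` gives separation of the
`g i` -/
theorem Sep.of_coord {g : ι → (σ → K)} {u : ι → (τ → K)} {N : ℕ} {A : Finset ι} (e : τ → σ)
    (he : ∀ i ∈ A, ∀ b, g i (e b) = u i b) (h : Sep u N A) : Sep g N A := by
  have := Sep.pullback (p := u) (u := g) (k := 1) (N := N) (A := A) (q := 1)
    (Ψ := fun b => X (e b)) (by simp) (fun b => (totalDegree_X _).le) (by simp)
    (by
      intro i hi b
      simp [he i hi b]) h
  rwa [one_mul] at this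

end Vale.Agent.P054.T2.H455
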