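import Vale.Agent.P054.T2.H441.AGen
import Vale.Agent.P054.T2.H930.Tan1
import Vale.Agent.P054.T2.H930.Block

/-!
# P054 / T2, (S-AD) of helper524, part 1: [AD] by elimination of the moving `g`

`Φ` a system in the variables `(g, s)`, `M` the matrix of its `g`-gradients, `b` the column
`D Φ + G · ∂_s Φ`.  At every actual point the column `b` lies in the column space of `M`; if
`rank M ≤ ρ` at the points, `= ρ` at `p`, then by [GOOD] the same holds on the germ and Cramer's rule
gives an additive derivation which extends `q (D + G ∂_s)` and maps the germ ideal to itself.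
-/

set_option linter.unusedSectionVars false

open MvPolynomial Module

namespace Vale.Agent.P054.T2.H455

section der

variable {σ L k : Type*} [Fintype σ] [DecidableEq σ] [CommRing k] [Field L] [Algebra k L]

open Vale.Agent.P054.T2.H930 (germ mx J pow_le_J span_le_J germ_le_J mem_germ)

theorem der_mem_pow {p : σ → L}
    (D : Derivation k (MvPolynomial σ L) (MvPolynomial σ L)) (n : ℕ)
    {r : MvPolynomial σ L} (hr : r ∈ (mx p) ^ (n + 1)) : D r ∈ (mx p) ^ n := by
  induction n generalizing r with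
  | zero => rw [pow_zero, Ideal.one_eq_top]; trivial
  | succ n ih =>
    rw [pow_succ] at hr
    refine Submodule.mul_induction_on hr ?_ ?_
    · intro a ha b hb
      rw [Derivation.leibniz, smul_eq_mul, smul_eq_mul]
      refine Ideal.add_mem _ (Ideal.mul_mem_right _ _ ha) ?_
      rw [pow_succ, mul_comm b (D a)]
      exact Ideal.mul_mem_mul (ih ha) hb
    · intro a b ha hb
      rw [map_add]; exact Ideal.add_mem _ ha hb

theorem der_mem_J {c : ℕ} {p : σ → L} {f : Fin c → MvPolynomial σ L} {n : ℕ}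
    (D : Derivation k (MvPolynomial σ L) (MvPolynomial σ L)) (hD : ∀ i, D (f i) ∈ J p f n)
    {F : MvPolynomial σ L} (hF : F ∈ J p f (n + 1)) : D F ∈ J p f n := by
  obtain ⟨x, hx, r, hr, rfl⟩ := Submodule.mem_sup.1 hF
  rw [map_add]
  refine Ideal.add_mem _ ?_ ?_
  · refine Submodule.span_induction (p := fun F _ => D F ∈ J p f n) ?_ ?_ ?_ ?_ hx
    · rintro _ ⟨i, rfl⟩
      exact hD i
    · rw [map_zero]; exact Ideal.zero_mem _
    · intro x y _ _ hx hy
      rw [map_add]; exact Ideal.add_mem _ hx hy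
    · intro a x hx hx'
      rw [smul_eq_mul, Derivation.leibniz, smul_eq_mul, smul_eq_mul]
      exact Ideal.add_mem _ (Ideal.mul_mem_left _ _ hx')
        (Ideal.mul_mem_right _ _ (span_le_J p f n hx))
  · exact pow_le_J p f n (der_mem_pow D n hr)

/-- an additive derivation which maps the equations into the germ ideal preserves it -/
theorem der_mem_germ {c : ℕ} {p : σ → L} {f : Fin c → MvPolynomial σ L}
    (D : Derivation k (MvPolynomial σ L) (MvPolynomial σ L)) (hD : ∀ i, D (f i) ∈ germ p f)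
    {F : MvPolynomial σ L} (hF : F ∈ germ p f) : D F ∈ germ p f :=
  mem_germ.2 (fun n => der_mem_J D (fun i => germ_le_J p f n (hD i))
    (germ_le_J p f (n + 1) hF))

end der

/-- **Cramer's rule for a column which raises the rank nowhere** -/
theorem cramer_rank {R L : Type*} [CommRing R] [Field L] (φ : R →+* L) {m γ : Type*} [Fintype m]
    [Fintype γ] [DecidableEq m] [DecidableEq γ] (M : Matrix m γ R) (b : m → R) (ρ : ℕ)
    (hrank : ((Matrix.fromCols M (Matrix.of fun i (_ : Unit) => b i)).map φ).rank ≤ ρ)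
    (f : Fin ρ → m) (g : Fin ρ → γ) (hdet : φ ((M.submatrix f g).det) ≠ 0) (i : m) :
    φ ((M.submatrix f g).det * b i -
      ∑ j, (M.submatrix f g).adjugate.mulVec (fun j => b (f j)) j * M i (g j)) = 0 := by
  classical
  set A : Matrix (Fin ρ) (Fin ρ) L := (M.submatrix f g).map φ with hA
  have hdetA : A.det = φ ((M.submatrix f g).det) := by
    rw [hA]
    exact (RingHom.map_det φ _).symm
  set M' := (Matrix.fromCols M (Matrix.of fun i (_ : Unit) => b i)).map φ with hM'
  -- the selected columns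
  let v : Fin ρ → (m → L) := fun j i => φ (M i (g j))
  have hv : LinearIndependent L v := by
    have h1 : LinearIndependent L A.col := by
      rw [Matrix.linearIndependent_cols_iff_isUnit, Matrix.isUnit_iff_isUnit_det]
      rw [hdetA]
      exact isUnit_iff_ne_zero.2 hdet
    let π : (m → L) →ₗ[L] (Fin ρ → L) := LinearMap.funLeft L L f
    refine LinearIndependent.of_comp π ?_
    have h2 : (π ∘ v) = A.col := by
      funext j i
      rfl
    rw [h2]
    exact h1
  have hle : Submodule.span L (Set.range v) ≤ Submodule.span L (Set.range M'.col) := by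
    apply Submodule.span_mono
    rintro _ ⟨j, rfl⟩
    exact ⟨Sum.inl (g j), rfl⟩
  have heq : Submodule.span L (Set.range v) = Submodule.span L (Set.range M'.col) := by
    apply Submodule.eq_of_le_of_finrank_le hle
    rw [← Matrix.rank_eq_finrank_span_cols, finrank_span_eq_card hv, Fintype.card_fin]
    exact hrank
  have hb : (fun i => φ (b i)) ∈ Submodule.span L (Set.range v) := by
    rw [heq]
    apply Submodule.subset_span
    exact ⟨Sum.inr (), rfl⟩
  obtain ⟨α, hα⟩ := (Submodule.mem_span_range_iff_exists_fun L).1 hb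
  have hα' : ∀ i, φ (b i) = ∑ j, α j * φ (M i (g j)) := by
    intro i
    have := congrFun hα i
    rw [Finset.sum_apply] at this
    rw [← this]
    rfl
  have hAα : A.mulVec α = fun j => φ (b (f j)) := by
    funext j
    rw [hα' (f j)]
    simp only [Matrix.mulVec, dotProduct]
    refine Finset.sum_congr rfl fun l _ => ?_
    rw [mul_comm]
    rfl
  have hadj : A.adjugate.mulVec (fun j => φ (b (f j))) = A.det • α := by
    rw [← hAα, Matrix.mulVec_mulVec, Matrix.adjugate_mul, Matrix.smul_mulVec, Matrix.one_mulVec]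
  have hφadj : ∀ j, φ ((M.submatrix f g).adjugate.mulVec (fun j => b (f j)) j) =
      A.det * α j := by
    intro j
    have h1 := congrFun hadj j
    rw [Pi.smul_apply, smul_eq_mul] at h1
    rw [← h1, hA]
    have h2 : ((M.submatrix f g).map φ).adjugate = (M.submatrix f g).adjugate.map φ := by
      have := RingHom.map_adjugate φ (M.submatrix f g)
      exact this.symm
    rw [h2]
    simp only [Matrix.mulVec, dotProduct, map_sum, map_mul, Matrix.map_apply]
  rw [map_sub, map_mul, map_sum, ← hdetA, hα' i, Finset.mul_sum, sub_eq_zero]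
  refine Finset.sum_congr rfl fun j _ => ?_
  rw [map_mul, hφadj j]
  ring

section core

open Vale.Agent.P054.T2.H930 Vale.Agent.P054.T2.H580 Vale.Agent.P054.T2.H441

variable {γ ς L k : Type*} [Fintype γ] [Fintype ς] [DecidableEq γ] [DecidableEq ς] [CommRing k]
  [Field L] [Algebra k L]

theorem eval_cD_add (D : Derivation k L L) (x : γ ⊕ ς → L) (F : MvPolynomial (γ ⊕ ς) L)
    (hF : eval x F = 0) :
    eval x (cD D F) + ∑ i, eval x (pderiv i F) * D (x i) = 0 := by
  have h1 := eval_dM D 1 (fun i => C (D (x i))) x (fun i => by rw [map_one, one_mul, eval_C]) F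
  rw [hF, map_zero, mul_zero, dM_eq_sum, one_mul, map_add, map_sum] at h1
  rw [← h1]
  congr 1
  refine Finset.sum_congr rfl fun i _ => ?_
  rw [map_mul, eval_C]

theorem mul_pderiv_mem (w : γ ⊕ ς → ℕ) {W N : ℕ} (hW : W ≤ N) {y : ς} (hy : w (Sum.inr y) = W)
    {F G : MvPolynomial (γ ⊕ ς) L} (hF : F ∈ Vw L w N) (hG : G ∈ Vw L w W) :
    pderiv (Sum.inr y) F * G ∈ Vw L w N := by
  have h1 := mul_mem_Vw w (pderiv_mem_Vw w hF (Sum.inr y)) hG
  rw [hy, Nat.sub_add_cancel hW] at h1
  exact h1

/-- **(S-AD), abstract form.** -/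
theorem elim_stable {c N ρ W : ℕ} (w : γ ⊕ ς → ℕ) (hwW : ∀ y, w (Sum.inr y) = W) (hWN : W ≤ N)
    (Φ : Fin c → MvPolynomial (γ ⊕ ς) L) (hΦ : ∀ i, Φ i ∈ Vw L w N)
    {α : Type*} (E : Set α) (x : α → γ ⊕ ς → L) (hz : ∀ e ∈ E, ∀ i, eval (x e) (Φ i) = 0)
    {p : γ ⊕ ς → L} (hp0 : ∀ i, eval p (Φ i) = 0)
    (hind : LinearIndependent L (fun i => grad p (Φ i)))
    (D : Derivation k L L) (G : ς → MvPolynomial ς L)
    (hG : ∀ y, rename Sum.inr (G y) ∈ Vw L w W)
    (hmove : ∀ e ∈ E, ∀ y, D (x e (Sum.inr y)) = eval (x e) (rename Sum.inr (G y)))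
    (hrank : ∀ e ∈ E, (Matrix.of fun (i : Fin c) (j : γ) =>
      eval (x e) (pderiv (Sum.inl j) (Φ i))).rank ≤ ρ)
    (hrank' : ρ ≤ (Matrix.of fun (i : Fin c) (j : γ) =>
      eval p (pderiv (Sum.inl j) (Φ i))).rank)
    (hgood : ∀ F ∈ Vw L w ((ρ + 1) * N), (∀ e ∈ E, eval (x e) F = 0) → F ∈ germ p Φ)
    {h : MvPolynomial ς L} (hh : rename Sum.inr h ∈ germ p Φ) :
    rename Sum.inr (dM D 1 G h) ∈ germ p Φ := by
  classical
  have hprime := germ_isPrime hp0 hind
  have hdom : IsDomain (MvPolynomial (γ ⊕ ς) L ⧸ germ p Φ) := Ideal.Quotient.isDomain _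
  let φ : MvPolynomial (γ ⊕ ς) L →+* FractionRing (MvPolynomial (γ ⊕ ς) L ⧸ germ p Φ) :=
    (algebraMap _ _).comp (Ideal.Quotient.mk (germ p Φ))
  have hφ : ∀ F, φ F = 0 ↔ F ∈ germ p Φ := by
    intro F
    show algebraMap (MvPolynomial (γ ⊕ ς) L ⧸ germ p Φ)
      (FractionRing (MvPolynomial (γ ⊕ ς) L ⧸ germ p Φ)) (Ideal.Quotient.mk (germ p Φ) F) = 0 ↔ _
    rw [IsFractionRing.to_map_eq_zero_iff, Ideal.Quotient.eq_zero_iff_mem]
  let M : Matrix (Fin c) γ (MvPolynomial (γ ⊕ ς) L) :=
    Matrix.of fun i j => pderiv (Sum.inl j) (Φ i)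
  let b : Fin c → MvPolynomial (γ ⊕ ς) L := fun i =>
    cD D (Φ i) + ∑ y, pderiv (Sum.inr y) (Φ i) * rename Sum.inr (G y)
  let M' := Matrix.fromCols M (Matrix.of fun i (_ : Unit) => b i)
  -- levels
  have hM : ∀ i j, M' i j ∈ Vw L w N := by
    intro i j
    rcases j with j | j
    · exact Vw_mono w (Nat.sub_le _ _) (pderiv_mem_Vw w (hΦ i) (Sum.inl j))
    · exact Submodule.add_mem _ (cD_mem_Vw D w (hΦ i))
        (Submodule.sum_mem _ fun y _ => mul_pderiv_mem w hWN (hwW y) (hΦ i) (hG y))
  -- rank at the points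
  have hr : ∀ e ∈ E, (M'.map (eval (x e))).rank ≤ ρ := by
    intro e he
    let T : Matrix γ (γ ⊕ Unit) L := Matrix.fromCols 1
      (Matrix.of fun j (_ : Unit) => - D (x e (Sum.inl j)))
    have hMT : M'.map (eval (x e)) = (M.map (eval (x e))) * T := by
      rw [Matrix.mul_fromCols, Matrix.mul_one]
      ext i j
      rcases j with j | j
      · rfl
      · rw [Matrix.fromCols_apply_inr, Matrix.mul_apply]
        show eval (x e) (b i) = ∑ j, eval (x e) (pderiv (Sum.inl j) (Φ i)) *
          (- D (x e (Sum.inl j)))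
        have h1 := eval_cD_add D (x e) (Φ i) (hz e he i)
        rw [Fintype.sum_sum_type] at h1
        have h2 : eval (x e) (b i) = eval (x e) (cD D (Φ i)) +
            ∑ y, eval (x e) (pderiv (Sum.inr y) (Φ i)) * D (x e (Sum.inr y)) := by
          show eval (x e) (cD D (Φ i) + ∑ y, pderiv (Sum.inr y) (Φ i) * rename Sum.inr (G y)) = _
          rw [map_add, map_sum]
          congr 1
          refine Finset.sum_congr rfl fun y _ => ?_
          rw [map_mul, hmove e he y]
        rw [h2]
        simp only [mul_neg, Finset.sum_neg_distrib]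
        linear_combination h1
    rw [hMT]
    exact (Matrix.rank_mul_le_left _ _).trans (hrank e he)
  have hrL : (M'.map φ).rank ≤ ρ := rank_le_of_points (k := L)
    (fun e => (eval (x e) : MvPolynomial (γ ⊕ ς) L →+* L)) E φ (Vw L w)
    (by rw [← C_1]; exact C_mem_Vw w 1 0) (fun a b x y hx hy => mul_mem_Vw w hx hy) M' N ρ hM
    (fun F hF hF0 => (hφ F).2 (hgood F hF hF0)) hr
  -- a minor which does not vanish at `p`
  obtain ⟨f, g, hdet⟩ := exists_minor _ ρ hrank'
  set q := (M.submatrix f g).det with hq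
  have hqp : eval p q ≠ 0 := by
    rw [hq, RingHom.map_det]
    exact hdet
  have hqg : q ∉ germ p Φ := fun h => hqp (eval_eq_zero_of_mem_germ hp0 h)
  have hφq : φ ((M.submatrix f g).det) ≠ 0 := fun h => hqg ((hφ _).1 h)
  have hcr := cramer_rank φ M b ρ hrL f g hφq
  -- the derivation
  let a : Fin ρ → MvPolynomial (γ ⊕ ς) L := fun j =>
    (M.submatrix f g).adjugate.mulVec (fun j => b (f j)) j
  let Gt : γ ⊕ ς → MvPolynomial (γ ⊕ ς) L := Sum.elim
    (fun x => - ∑ j, if g j = x then a j else 0) (fun y => q * rename Sum.inr (G y))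
  have hΔ : ∀ F, dM D q Gt F = q * (cD D F + ∑ y, pderiv (Sum.inr y) F * rename Sum.inr (G y)) -
      ∑ j, a j * pderiv (Sum.inl (g j)) F := by
    intro F
    rw [dM_eq_sum, Fintype.sum_sum_type]
    have h1 : ∑ x, pderiv (Sum.inl x) F * Gt (Sum.inl x) =
        - ∑ j, a j * pderiv (Sum.inl (g j)) F := by
      have h2 : ∀ x, pderiv (Sum.inl x) F * Gt (Sum.inl x) =
          - ∑ j, if g j = x then a j * pderiv (Sum.inl x) F else 0 := by
        intro x
        show pderiv (Sum.inl x) F * (- ∑ j, if g j = x then a j else 0) = _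
        rw [mul_neg, Finset.mul_sum]
        congr 1
        refine Finset.sum_congr rfl fun j _ => ?_
        split_ifs
        · ring
        · ring
      simp only [h2, Finset.sum_neg_distrib]
      congr 1
      rw [Finset.sum_comm]
      refine Finset.sum_congr rfl fun j _ => ?_
      rw [Finset.sum_ite_eq Finset.univ (g j) (fun x => a j * pderiv (Sum.inl x) F),
        if_pos (Finset.mem_univ _)]
    have h3 : ∑ y, pderiv (Sum.inr y) F * Gt (Sum.inr y) =
        q * ∑ y, pderiv (Sum.inr y) F * rename Sum.inr (G y) := by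
      rw [Finset.mul_sum]
      refine Finset.sum_congr rfl fun y _ => ?_
      show pderiv (Sum.inr y) F * (q * rename Sum.inr (G y)) = _
      ring
    rw [h1, h3]
    ring
  have hΔΦ : ∀ i, dM D q Gt (Φ i) ∈ germ p Φ := by
    intro i
    rw [hΔ, ← hφ]
    exact hcr i
  have hΔh := der_mem_germ (dM D q Gt) hΔΦ hh
  rw [hΔ] at hΔh
  have h0 : ∀ x : γ, pderiv (Sum.inl x) (rename (Sum.inr : ς → γ ⊕ ς) h) = 0 := by
    intro x
    exact pderiv_rename_notMem Sum.inr _ _ (by rintro ⟨a, ha⟩; cases ha)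
  have h1 : ∑ j, a j * pderiv (Sum.inl (g j)) (rename (Sum.inr : ς → γ ⊕ ς) h) = 0 :=
    Finset.sum_eq_zero fun j _ => by rw [h0, mul_zero]
  rw [h1, sub_zero] at hΔh
  have h2 : cD D (rename (Sum.inr : ς → γ ⊕ ς) h) + ∑ y, pderiv (Sum.inr y)
      (rename (Sum.inr : ς → γ ⊕ ς) h) * rename Sum.inr (G y) =
      rename Sum.inr (dM D 1 G h) := by
    rw [dM_eq_sum, one_mul, map_add, map_sum, cD_rename]
    congr 1
    refine Finset.sum_congr rfl fun y _ => ?_
    rw [map_mul, pderiv_rename Sum.inr_injective]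
  rw [h2] at hΔh
  exact (hprime.mem_or_mem hΔh).resolve_left hqg

end core

end Vale.Agent.P054.T2.H455
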