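import Vale.Agent.P054.T2.H455.SAD
import Vale.Agent.P054.T2.H441.Stab
import Vale.Agent.P054.T2.H395.Comap

/-!
# P054 / T2, (S-AD) of helper524, part 2: the primes of `s` and `r` are stable, from `ZData` alone
-/

set_option linter.unusedSectionVars false

open MvPolynomial Module

namespace Vale.Agent.P054.T2.H455

open Vale.Agent.P054.T2.H686 Vale.Agent.P054.T2.H580 Vale.Agent.P054.T2.SecC
open Vale.Agent.P054.T2.H930
open Vale.Agent.P054.T2.H441 (cD dM zB rot yP chg chg_X dM_C dM_X der_eq_mul der_skew der_zB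
  dM_algHom dirV dirV_eq_span zB_mat)
open Vale.Agent.P054.T2.H588 (mat mat_orth KK pv)
open Vale.Agent.P054.T2.H431 (constF mem_constF)

variable {n : ℕ} {k : Type*} [CommRing k] [Algebra k ℝ]

section field

/-- the velocity of `θ` -/
noncomputable def rZ (O : Matrix (Fin (n + 1)) (Fin (n + 1)) ℝ) (i : Fin (n + 1)) :
    MvPolynomial (ZI n) ℝ :=
  ∑ l, C (O i l) * ((X (Sum.inr l) - X (Sum.inl l)) * C (1 / 2))

/-- the vector field on the points `(ζ, θ)` -/
noncomputable def GZ (O : Matrix (Fin (n + 1)) (Fin (n + 1)) ℝ) : ZI n → MvPolynomial (ZI n) ℝ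
  | Sum.inl i => - rZ O i
  | Sum.inr i => rZ O i

theorem eval_rZ (O : Matrix (Fin (n + 1)) (Fin (n + 1)) ℝ) (s : ZZ n) (i : Fin (n + 1)) :
    eval (pt s) (rZ O i) = rot O s i := by
  unfold rZ rot
  rw [map_sum]
  refine Finset.sum_congr rfl fun l _ => ?_
  simp only [map_mul, map_sub, eval_C, eval_X]
  show O i l * ((s.2 l - s.1 l) * (1 / 2)) = _
  ring

theorem eval_GZ (D : Derivation k ℝ ℝ) (B O : Matrix (Fin (n + 1)) (Fin (n + 1)) ℝ)
    (hD : B.map D = O * B) (r : ZZ n) (h1 : ∀ j, D (r.1 j) = 0) (h2 : ∀ j, D (r.2 j) = 0)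
    (y : ZI n) : D (pt (zB B r) y) = eval (pt (zB B r)) (GZ O y) := by
  rcases y with y | y
  · show D ((zB B r).1 y) = eval (pt (zB B r)) (- rZ O y)
    rw [map_neg, eval_rZ]
    exact (der_zB D B O hD r h1 h2 y).1
  · show D ((zB B r).2 y) = eval (pt (zB B r)) (rZ O y)
    rw [eval_rZ]
    exact (der_zB D B O hD r h1 h2 y).2

/-- the coordinates `(y, y')` are constant -/
theorem dM_yP (D : Derivation k ℝ ℝ) (B O : Matrix (Fin (n + 1)) (Fin (n + 1)) ℝ)
    (hD : B.map D = O * B) (hO : O.transpose = -O) (b : ZI n) : dM D 1 (GZ O) (yP B b) = 0 := by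
  have hD' : ∀ i j, D (B i j) = (O * B) i j := by
    intro i j
    have := congrFun (congrFun hD i) j
    rwa [Matrix.map_apply] at this
  have hh : dM D 1 (GZ O) (C (1 / 2 : ℝ)) = 0 := by
    rw [dM_C]
    have : D (1 / 2 : ℝ) = 0 := by
      have h3 := D.leibniz (2 : ℝ) (1 / 2 : ℝ)
      rw [mul_one_div_cancel (two_ne_zero), D.map_one_eq_zero] at h3
      have h4 : D (2 : ℝ) = 0 := by
        have : (2 : ℝ) = 1 + 1 := by norm_num
        rw [this, map_add, D.map_one_eq_zero, add_zero]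
      rw [h4, smul_zero, add_zero, smul_eq_mul] at h3
      rcases mul_eq_zero.1 h3.symm with h5 | h5
      · exact absurd h5 two_ne_zero
      · exact h5
    rw [this, map_zero, mul_zero]
  rcases b with i | m
  · have h0 : yP B (Sum.inl i) = (X (Sum.inl i) + X (Sum.inr i)) * C (1 / 2 : ℝ) := rfl
    rw [h0, Derivation.leibniz, hh, map_add, dM_X, dM_X]
    show _ • (0 : MvPolynomial (ZI n) ℝ) + C (1 / 2 : ℝ) • (- rZ O i + rZ O i) = 0
    rw [neg_add_cancel, smul_zero, smul_zero, add_zero]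
  · have h0 : yP B (Sum.inr m) = ∑ i, C (B i m) *
        ((X (Sum.inr i) - X (Sum.inl i)) * C (1 / 2 : ℝ)) := rfl
    rw [h0, map_sum]
    have h3 : ∀ i, dM D 1 (GZ O) (C (B i m) * ((X (Sum.inr i) - X (Sum.inl i)) * C (1 / 2))) =
        (C (B i m) * rZ O i +
          C ((O * B) i m) * ((X (Sum.inr i) - X (Sum.inl i)) * C (1 / 2))) := by
      intro i
      rw [Derivation.leibniz, Derivation.leibniz, hh, dM_C, hD', map_sub, dM_X, dM_X]
      show C (B i m) • (_ • (0 : MvPolynomial (ZI n) ℝ) + C (1 / 2 : ℝ) • (rZ O i - - rZ O i)) +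
        _ • (1 * C ((O * B) i m)) = _
      simp only [smul_eq_mul, mul_zero, zero_add, sub_neg_eq_add, one_mul]
      have h4 : (C (1 / 2 : ℝ) : MvPolynomial (ZI n) ℝ) * (rZ O i + rZ O i) = rZ O i := by
        rw [← two_mul, ← mul_assoc]
        have : (C (1 / 2 : ℝ) : MvPolynomial (ZI n) ℝ) * 2 = 1 := by
          have h5 : (2 : MvPolynomial (ZI n) ℝ) = C 2 := (map_ofNat C 2).symm
          rw [h5, ← C_mul, one_div_mul_cancel two_ne_zero, C_1]
        rw [this, one_mul]
      rw [h4]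
      ring
    simp only [h3]
    rw [Finset.sum_add_distrib]
    have h6 : ∑ i, C (B i m) * rZ O i = ∑ l, (∑ i, C (B i m) * C (O i l)) *
        ((X (Sum.inr l) - X (Sum.inl l)) * C (1 / 2) : MvPolynomial (ZI n) ℝ) := by
      unfold rZ
      simp only [Finset.mul_sum, Finset.sum_mul]
      rw [Finset.sum_comm]
      refine Finset.sum_congr rfl fun l _ => Finset.sum_congr rfl fun i _ => ?_
      ring
    have h7 : ∀ l, (∑ i, C (B i m) * C (O i l) : MvPolynomial (ZI n) ℝ) = - C ((O * B) l m) := by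
      intro l
      rw [Matrix.mul_apply, ← map_neg, ← Finset.sum_neg_distrib, map_sum]
      refine Finset.sum_congr rfl fun i _ => ?_
      rw [← C_mul]
      congr 1
      have h8 : O i l = - O l i := by
        have := congrFun (congrFun hO l) i
        simpa [Matrix.transpose_apply] using this
      rw [h8]
      ring
    rw [h6]
    simp only [h7]
    rw [← Finset.sum_add_distrib, Finset.sum_eq_zero]
    intro i _
    ring

theorem dM_chg (D : Derivation k ℝ ℝ) (B O : Matrix (Fin (n + 1)) (Fin (n + 1)) ℝ)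
    (hD : B.map D = O * B) (hO : O.transpose = -O) (h : MvPolynomial (ZI n) ℝ) :
    dM D 1 (GZ O) (chg B h) = chg B (cD D h) := by
  rw [dM_algHom D 1 (GZ O) (chg B) (fun b => by rw [chg_X]; exact dM_yP D B O hD hO b), one_mul]

theorem GZ_mem (O : Matrix (Fin (n + 1)) (Fin (n + 1)) ℝ) (w : Crd n ⊕ Pt n → ℕ) {W : ℕ}
    (hw : ∀ y, w (Sum.inr y) = W) (y : ZI n) :
    rename (Sum.inr : Pt n → Crd n ⊕ Pt n) (GZ O y) ∈ Vw ℝ w W := by
  have hX : ∀ b : Pt n, (X (Sum.inr b) : MvPolynomial (Crd n ⊕ Pt n) ℝ) ∈ Vw ℝ w W := by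
    intro b
    have := X_mem_Vw (k := ℝ) w (Sum.inr b)
    rwa [hw] at this
  have h1 : ∀ i, rename (Sum.inr : Pt n → Crd n ⊕ Pt n) (rZ O i) ∈ Vw ℝ w W := by
    intro i
    unfold rZ
    rw [map_sum]
    refine Submodule.sum_mem _ fun l _ => ?_
    rw [map_mul, map_mul, map_sub, rename_C, rename_C, rename_X, rename_X]
    have h3 := mul_mem_Vw w (C_mem_Vw (k := ℝ) w (O i l) 0)
      (mul_mem_Vw w (Submodule.sub_mem _ (hX (Sum.inr l)) (hX (Sum.inl l)))
        (C_mem_Vw w (1 / 2 : ℝ) 0))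
    simpa using h3
  rcases y with y | y
  · show rename _ (- rZ O y) ∈ _
    rw [map_neg]
    exact Submodule.neg_mem _ (h1 y)
  · exact h1 y

end field

section swap

variable {E0 E1 E2 : Finset (ZZ n × ZZ n)} {wt : Crd n ⊕ Pt n → ℕ} {N c₀ c₁ c₂ σ₁ σ₂ : ℕ}

theorem Qf_symm (s r : ZZ n) : Qf (s - r) = Qf (r - s) := by
  unfold Qf
  refine Finset.sum_congr rfl fun i _ => ?_
  simp only [Prod.fst_sub, Prod.snd_sub, Pi.sub_apply]
  ring

/-- exchange of the two end points -/
noncomputable def zswap (Z : ZData ℝ n E0 E1 E2 wt N c₀ c₁ c₂ σ₁ σ₂) :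
    ZData ℝ n (swp E0) (swp E1) (swp E2) wt N c₀ c₂ c₁ σ₂ σ₁ where
  adj := by
    intro e he
    obtain ⟨h1, h2⟩ := Z.adj _ (mem_swp.1 he)
    exact ⟨Ne.symm h1, by rw [Qf_symm]; exact h2⟩
  sub := fun e he => mem_swp.2 (Z.sub (mem_swp.1 he))
  sub' := fun e he => mem_swp.2 (Z.sub' (mem_swp.1 he))
  wt_pos := Z.wt_pos
  wt_le := Z.wt_le
  leaf₁ := by
    intro e he
    obtain ⟨W, hW1, hW2⟩ := Z.leaf₂ _ (mem_swp.1 he)
    refine ⟨W, hW1, fun G hG h w hw => ?_⟩
    have h1 := hW2 G hG (fun e' he' h2 => by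
      have := h e'.swap (mem_swp.2 (by rwa [Prod.swap_swap])) h2
      rw [mu_comm]
      exact this) w hw
    rw [mu_comm] at h1
    exact h1
  leaf₂ := by
    intro e he
    obtain ⟨W, hW1, hW2⟩ := Z.leaf₁ _ (mem_swp.1 he)
    refine ⟨W, hW1, fun G hG h w hw => ?_⟩
    have h1 := hW2 G hG (fun e' he' h2 => by
      have := h e'.swap (mem_swp.2 (by rwa [Prod.swap_swap])) h2
      rw [mu_comm]
      exact this) w hw
    rw [mu_comm] at h1
    exact h1
  f := Z.f
  h := Z.h'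
  h' := Z.h
  f_mem := Z.f_mem
  h_mem := Z.h'_mem
  h'_mem := Z.h_mem
  f_zero := by
    intro i e he
    have h1 := Z.adj _ (mem_swp.1 he)
    have h2 := Z.f_zero i _ (mem_swp.1 he)
    rw [meet_comm h1.1 h1.2, Prod.fst_swap, Prod.snd_swap] at h2
    exact h2
  h_zero := by
    intro i e he
    have h1 := Z.h'_zero i _ (mem_swp.1 he)
    rw [Prod.fst_swap, Prod.snd_swap] at h1
    exact h1
  h'_zero := by
    intro i e he
    have h1 := Z.h_zero i _ (mem_swp.1 he)
    rw [Prod.fst_swap, Prod.snd_swap] at h1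
    exact h1
  f_ind := by
    intro e he
    have h1 := Z.adj _ (Z.mem0 (mem_swp.1 he))
    have h2 := Z.f_ind _ (mem_swp.1 he)
    rw [meet_comm h1.1 h1.2, Prod.fst_swap, Prod.snd_swap] at h2
    exact h2
  h_ind := by
    intro e he
    have h1 := Z.h'_ind _ (mem_swp.1 he)
    rw [Prod.fst_swap, Prod.snd_swap] at h1
    exact h1
  h'_ind := by
    intro e he
    have h1 := Z.h_ind _ (mem_swp.1 he)
    rw [Prod.fst_swap, Prod.snd_swap] at h1
    exact h1
  good₁ := by
    intro e he P hP h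
    have h1 := Z.good₂ _ (mem_swp.1 he) P hP (fun e' he' =>
      h e'.swap (mem_swp.2 (by rwa [Prod.swap_swap])))
    rw [Prod.fst_swap, Prod.snd_swap] at h1
    exact h1
  good₂ := by
    intro e he P hP h
    have h1 := Z.good₁ _ (mem_swp.1 he) P hP (fun e' he' =>
      h e'.swap (mem_swp.2 (by rwa [Prod.swap_swap])))
    rw [Prod.fst_swap, Prod.snd_swap] at h1
    exact h1
  tight := by have := Z.tight; omega
  le₁ := Z.le₂
  le₂ := Z.le₁

end swap

end Vale.Agent.P054.T2.H455
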