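import Vale.Agent.P054.T2.H455.SAD2

/-!
# P054 / T2, (S-AD) of helper524, part 3: ranks from `ZData`, the stability theorem
-/

set_option linter.unusedSectionVars false

open MvPolynomial Module

namespace Vale.Agent.P054.T2.H455

open Vale.Agent.P054.T2.H686 Vale.Agent.P054.T2.H580 Vale.Agent.P054.T2.SecC
open Vale.Agent.P054.T2.H930
open Vale.Agent.P054.T2.H441 (cD dM zB rot yP chg chg_X dM_C dM_X der_eq_mul der_skew der_zB
  dM_algHom dirV dirV_eq_span zB_mat)
open Vale.Agent.P054.T2.H588 (mat mat_orth KK pv)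
open Vale.Agent.P054.T2.H431 (constF mem_constF)

variable {n : ℕ}

section ranks

variable {E0 E1 E2 : Finset (ZZ n × ZZ n)} {wt : Crd n ⊕ Pt n → ℕ} {N c₀ c₁ c₂ σ₁ σ₂ : ℕ}
  (Z : ZData ℝ n E0 E1 E2 wt N c₀ c₁ c₂ σ₁ σ₂)

/-- the system of the first hat -/
noncomputable def phiZ : Fin (c₀ + c₁) → MvPolynomial (Crd n ⊕ Pt n) ℝ :=
  Fin.append (fun i => rename Sum.inl (Z.f i)) Z.h

/-- the point of the edge on the first hat -/
noncomputable def xh (e : ZZ n × ZZ n) : Crd n ⊕ Pt n → ℝ := hatPt e.1 (mu e.1 e.2)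

theorem phiZ_left (i : Fin c₀) : phiZ Z (Fin.castAdd c₁ i) = rename Sum.inl (Z.f i) := by
  unfold phiZ
  rw [Fin.append_left]

theorem phiZ_right (i : Fin c₁) : phiZ Z (Fin.natAdd c₀ i) = Z.h i := by
  unfold phiZ
  rw [Fin.append_right]

theorem phiZ_mem (i : Fin (c₀ + c₁)) : phiZ Z i ∈ Vw ℝ wt N := by
  refine Fin.addCases (fun i => ?_) (fun i => ?_) i
  · rw [phiZ_left]; exact Z.f_mem i
  · rw [phiZ_right]; exact Z.h_mem i

theorem phiZ_zero {e : ZZ n × ZZ n} (he : e ∈ E0) (i : Fin (c₀ + c₁)) :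
    eval (xh e) (phiZ Z i) = 0 := by
  refine Fin.addCases (fun i => ?_) (fun i => ?_) i
  · rw [phiZ_left, eval_rename]
    exact Z.f_zero i e he
  · rw [phiZ_right]; exact Z.h_zero i e he

theorem phiZ_ind {e : ZZ n × ZZ n} (he : e ∈ E2) :
    LinearIndependent ℝ (fun i => grad (xh e) (phiZ Z i)) := by
  refine grad_block_linInd (xh e) (phiZ Z) Z.f (phiZ_left Z) ?_ ?_
  · exact Z.f_ind e he
  · have h1 := Z.h_ind e he
    have h2 : (fun i : Fin c₁ => fun b => eval (xh e) (pderiv (Sum.inr b)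
        (phiZ Z (Fin.natAdd c₀ i)))) = fun i => fun b =>
        eval (hatPt e.1 (mu e.1 e.2)) (pderiv (Sum.inr b) (Z.h i)) := by
      funext i b
      rw [phiZ_right]
      rfl
    rw [h2]
    exact h1

/-- kernel of the `g`-gradients -/
noncomputable def K1 (e : ZZ n × ZZ n) : Submodule ℝ (Crd n → ℝ) :=
  Ksub (fun (i : Fin (c₀ + c₁)) (j : Crd n) => eval (xh e) (pderiv (Sum.inl j) (phiZ Z i)))

/-- kernel of the gradients of `f` -/
noncomputable def K0 (e : ZZ n × ZZ n) : Submodule ℝ (Crd n → ℝ) :=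
  Ksub (fun (i : Fin c₀) (j : Crd n) => eval (meet e.1 e.2) (pderiv j (Z.f i)))

theorem K1_le_K0 (e : ZZ n × ZZ n) : K1 Z e ≤ K0 Z e := by
  intro w hw i
  have h1 := hw (Fin.castAdd c₁ i)
  rw [← h1]
  refine Finset.sum_congr rfl fun j _ => ?_
  show eval (meet e.1 e.2) (pderiv j (Z.f i)) * w j =
    eval (xh e) (pderiv (Sum.inl j) (phiZ Z (Fin.castAdd c₁ i))) * w j
  rw [phiZ_left, pderiv_rename Sum.inl_injective, eval_rename]
  rfl

theorem finrank_K0 {e : ZZ n × ZZ n} (he : e ∈ E2) : finrank ℝ (K0 Z e) + c₀ = 2 * n + 1 := by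
  have h1 := finrank_Ksub (fun (i : Fin c₀) (j : Crd n) =>
    eval (meet e.1 e.2) (pderiv j (Z.f i)))
  have h2 : LinearIndependent ℝ (Matrix.of (fun (i : Fin c₀) (j : Crd n) =>
    eval (meet e.1 e.2) (pderiv j (Z.f i)))).row := Z.f_ind e he
  rw [h2.rank_matrix, Fintype.card_fin] at h1
  rw [show finrank ℝ (K0 Z e) + c₀ = _ from h1]
  simp only [Fintype.card_sum, Fintype.card_fin, Fintype.card_unit]
  omega

/-- the tangent directions of the leaf lie in the kernel -/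
theorem leaf_le_K1 {e : ZZ n × ZZ n} (he : e ∈ E1) :
    ∃ W : Submodule ℝ (Fin n → ℝ), σ₁ ≤ finrank ℝ W ∧ W.map (leafDir e.1) ≤ K1 Z e := by
  obtain ⟨W, hW1, hW2⟩ := Z.leaf₁ e he
  refine ⟨W, hW1, ?_⟩
  rintro _ ⟨w, hw, rfl⟩ i
  have h1 := leaf_killed E0 e.1 (mu e.1 e.2) wt Z.wt_pos W hW2 (phiZ_mem Z i)
    (fun e' he' => phiZ_zero Z he' i) w hw
  rw [← h1]
  exact Finset.sum_congr rfl fun j _ => mul_comm _ _

theorem finrank_K1_ge {e : ZZ n × ZZ n} (he : e ∈ E1) : σ₁ ≤ finrank ℝ (K1 Z e) := by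
  obtain ⟨W, hW1, hW2⟩ := leaf_le_K1 Z he
  have h1 : finrank ℝ (W.map (leafDir e.1)) = finrank ℝ W :=
    (Submodule.equivMapOfInjective (leafDir e.1) (leafDir_injective e.1) W).finrank_eq.symm
  have h2 := Submodule.finrank_mono hW2
  omega

/-- the kernel consists of leaf directions -/
theorem K1_le_leafDir {e : ZZ n × ZZ n} (he : e ∈ E2) {g : Crd n → ℝ} (hg : g ∈ K1 Z e) :
    g = leafDir e.1 (fun i => g (Sum.inl i)) := by
  classical
  -- the functional `(g, 0)` kills the gradients of the incidence polynomials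
  have key : ∀ i, ∑ j, eval (xh e) (pderiv (Sum.inl j) (incP ℝ n i)) * g j = 0 := by
    intro i
    have h1 : incP ℝ n i ∈ germ (xh e) (phiZ Z) :=
      Z.good₁ e he _ (Z.incP_mem i) (fun _ _ => eval_incP _ _ i)
    have h2 := grad_mem_of_mem_germ (fun i => phiZ_zero Z (Z.mem0 he) i) h1
    let L : (Crd n ⊕ Pt n → ℝ) →ₗ[ℝ] ℝ := ∑ j : Crd n, g j • LinearMap.proj (Sum.inl j)
    have hL : ∀ v : Crd n ⊕ Pt n → ℝ, L v = ∑ j, g j * v (Sum.inl j) := by
      intro v
      simp [L, LinearMap.sum_apply]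
    have h4 : Submodule.span ℝ (Set.range fun i => grad (xh e) (phiZ Z i)) ≤ LinearMap.ker L := by
      rw [Submodule.span_le]
      rintro _ ⟨i, rfl⟩
      show L _ = 0
      rw [hL, ← hg i]
      exact Finset.sum_congr rfl fun j _ => mul_comm _ _
    have h5 : L (grad (xh e) (incP ℝ n i)) = 0 := h4 h2
    rw [hL] at h5
    rw [← h5]
    exact Finset.sum_congr rfl fun j _ => mul_comm _ _
  funext x
  rcases x with i | i | i
  · rfl
  · have h1 := key (Sum.inl i)
    have h2 : ∀ j, eval (xh e) (pderiv (Sum.inl j) (incP ℝ n (Sum.inl i))) =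
        (if j = Sum.inr (Sum.inl i) then 1 else 0) +
          (if j = Sum.inl i then e.1.1 0 else 0) := by
      intro j
      have h3 : eval (xh e) (X (Sum.inr (Sum.inl 0))) = e.1.1 0 := by
        rw [eval_X]; rfl
      unfold incP
      simp only [map_add, map_sub, map_mul, pderiv_X, Derivation.leibniz, smul_eq_mul,
        Pi.single_apply, Sum.inl.injEq, reduceCtorEq, if_false, map_zero, mul_zero, add_zero,
        sub_zero, h3]
      by_cases h4 : j = Sum.inr (Sum.inl i)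
      · subst h4
        simp
      · by_cases h5 : j = Sum.inl i
        · subst h5
          simp
        · simp [h4, h5, Ne.symm h4, Ne.symm h5]
    simp only [h2, add_mul, Finset.sum_add_distrib, ite_mul, one_mul, zero_mul,
      Finset.sum_ite_eq', Finset.mem_univ, if_true] at h1
    show g (Sum.inr (Sum.inl i)) = - (e.1.1 0 * g (Sum.inl i))
    linarith
  · have h1 := key (Sum.inr ())
    have h2 : ∀ j, eval (xh e) (pderiv (Sum.inl j) (incP ℝ n (Sum.inr ()))) =
        (if j = Sum.inr (Sum.inr ()) then 1 else 0) +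
          ∑ l : Fin n, (if j = Sum.inl l then e.1.2 l.succ else 0) := by
      intro j
      have h3 : ∀ l : Fin n, eval (xh e) (X (Sum.inr (Sum.inr l.succ))) = e.1.2 l.succ := by
        intro l
        rw [eval_X]; rfl
      unfold incP
      simp only [map_add, map_sub, map_mul, map_sum, pderiv_X, Derivation.leibniz, smul_eq_mul,
        Pi.single_apply, Sum.inl.injEq, reduceCtorEq, if_false, map_zero, mul_zero, add_zero,
        sub_zero, h3]
      congr 1
      · by_cases h4 : j = Sum.inr (Sum.inr ())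
        · subst h4
          simp
        · simp [h4, Ne.symm h4]
      · refine Finset.sum_congr rfl fun l _ => ?_
        by_cases h5 : j = Sum.inl l
        · subst h5
          simp
        · simp [h5, Ne.symm h5]
    simp only [h2, add_mul, Finset.sum_add_distrib, ite_mul, one_mul, zero_mul,
      Finset.sum_ite_eq', Finset.mem_univ, if_true] at h1
    have h6 : ∑ j : Crd n, (∑ l : Fin n, (if j = Sum.inl l then e.1.2 l.succ else 0)) * g j =
        ∑ l : Fin n, e.1.2 l.succ * g (Sum.inl l) := by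
      simp only [Finset.sum_mul, ite_mul, zero_mul]
      rw [Finset.sum_comm]
      refine Finset.sum_congr rfl fun l _ => ?_
      rw [Finset.sum_ite_eq']
      simp
    rw [h6] at h1
    show g (Sum.inr (Sum.inr i)) = - ∑ l : Fin n, e.1.2 l.succ * g (Sum.inl l)
    have h7 : g (Sum.inr (Sum.inr i)) = g (Sum.inr (Sum.inr ())) := rfl
    rw [h7]
    linarith

theorem K1_inf {e : ZZ n × ZZ n} (he : e ∈ E2) :
    K1 Z e ⊓ K1 (zswap Z) e.swap = ⊥ := by
  rw [eq_bot_iff]
  rintro g ⟨h1, h2⟩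
  have h3 := K1_le_leafDir Z he h1
  have h4 := K1_le_leafDir (zswap Z) (mem_swp.2 (by rwa [Prod.swap_swap])) h2
  have h5 := (Z.adj e (Z.mem0 he)).1
  have h6 := leafDir_eq h5 (h3.symm.trans h4)
  rw [Submodule.mem_bot, h3, h6.1, map_zero]

theorem K0_swap {e : ZZ n × ZZ n} (he : e ∈ E2) : K0 (zswap Z) e.swap = K0 Z e := by
  have h1 := Z.adj e (Z.mem0 he)
  unfold K0
  rw [Prod.fst_swap, Prod.snd_swap, ← meet_comm h1.1 h1.2]
  rfl

/-- at an edge of `E2` the kernel has exactly the dimension of the leaf -/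
theorem finrank_K1_le {e : ZZ n × ZZ n} (he : e ∈ E2) : finrank ℝ (K1 Z e) ≤ σ₁ := by
  have h1 : e.swap ∈ swp E1 := mem_swp.2 (by rw [Prod.swap_swap]; exact Z.sub' he)
  have h2 := finrank_K1_ge (zswap Z) h1
  have h3 : K1 Z e ⊔ K1 (zswap Z) e.swap ≤ K0 Z e :=
    sup_le (K1_le_K0 Z e) ((K1_le_K0 (zswap Z) e.swap).trans (le_of_eq (K0_swap Z he)))
  have h4 := Submodule.finrank_mono h3
  have h5 := Submodule.finrank_sup_add_finrank_inf_eq (K1 Z e) (K1 (zswap Z) e.swap)
  rw [K1_inf Z he, finrank_bot, add_zero] at h5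
  have h6 := finrank_K0 Z he
  have h7 := Z.tight
  omega

/-- the matrix of the `g`-gradients -/
noncomputable def MZ (e : ZZ n × ZZ n) : Matrix (Fin (c₀ + c₁)) (Crd n) ℝ :=
  Matrix.of fun i j => eval (xh e) (pderiv (Sum.inl j) (phiZ Z i))

theorem finrank_K1_add (e : ZZ n × ZZ n) : finrank ℝ (K1 Z e) + (MZ Z e).rank = 2 * n + 1 := by
  have h1 := finrank_Ksub (fun (i : Fin (c₀ + c₁)) (j : Crd n) =>
    eval (xh e) (pderiv (Sum.inl j) (phiZ Z i)))
  refine Eq.trans h1 ?_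
  simp only [Fintype.card_sum, Fintype.card_fin, Fintype.card_unit]
  omega

theorem rank_MZ_le {e : ZZ n × ZZ n} (he : e ∈ E1) : (MZ Z e).rank ≤ 2 * n + 1 - σ₁ := by
  have h1 := finrank_K1_add Z e
  have h2 := finrank_K1_ge Z he
  omega

theorem rank_MZ_ge {e : ZZ n × ZZ n} (he : e ∈ E2) : 2 * n + 1 - σ₁ ≤ (MZ Z e).rank := by
  have h1 := finrank_K1_add Z e
  have h2 := finrank_K1_le Z he
  omega

variable {k : Type*} [CommRing k] [Algebra k ℝ]

/-- **(S-AD) for `s`, on the first hat.** -/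
theorem hat_stab_s {W : ℕ} (hW : ∀ y, wt (Sum.inr y) = W) {e : ZZ n × ZZ n} (he : e ∈ E2)
    (δ : Derivation k ℝ ℝ) {B : Matrix (Fin (n + 1)) (Fin (n + 1)) ℝ} (hB : B * B.transpose = 1)
    (hpt : ∀ e' ∈ E1, ∃ x : ZZ n, e'.1 = zB B x ∧ (∀ j, δ (x.1 j) = 0) ∧ ∀ j, δ (x.2 j) = 0)
    {h : MvPolynomial (ZI n) ℝ}
    (hh : rename (Sum.inr : Pt n → Crd n ⊕ Pt n) (chg B h) ∈ germ (xh e) (phiZ Z)) :
    rename (Sum.inr : Pt n → Crd n ⊕ Pt n) (chg B (cD δ h)) ∈ germ (xh e) (phiZ Z) := by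
  set O : Matrix (Fin (n + 1)) (Fin (n + 1)) ℝ := B.map δ * B.transpose with hO
  have hDB : B.map δ = O * B := der_eq_mul δ hB
  have hOs : O.transpose = -O := der_skew δ hB
  have hWN : W ≤ N := by
    have := Z.wt_le (Sum.inr (Sum.inl 0))
    rwa [hW] at this
  have key := elim_stable (L := ℝ) (ρ := 2 * n + 1 - σ₁) wt hW hWN (phiZ Z) (phiZ_mem Z)
    {e' : ZZ n × ZZ n | e' ∈ E1} xh (fun e' he' i => phiZ_zero Z (Z.sub he') i)
    (p := xh e) (fun i => phiZ_zero Z (Z.mem0 he) i) (phiZ_ind Z he) δ (GZ O)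
    (GZ_mem O wt hW)
    (by
      intro e' he' y
      obtain ⟨x, hx, hx1, hx2⟩ := hpt e' he'
      rw [eval_rename]
      have h1 : xh e' ∘ Sum.inr = pt e'.1 := rfl
      have h2 : xh e' (Sum.inr y) = pt e'.1 y := rfl
      rw [h1, h2, hx]
      exact eval_GZ δ B O hDB x hx1 hx2 y)
    (fun e' he' => rank_MZ_le Z he') (rank_MZ_ge Z he)
    (by
      intro F hF hF0
      refine Z.good₁ e he F (Vw_mono wt ?_ hF) (fun e' he' => hF0 e' he')
      have h1 : (2 * n + 1 - σ₁ + 1) * N ≤ (2 * n + 2) * N := Nat.mul_le_mul_right _ (by omega)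
      omega)
    hh
  rwa [dM_chg δ B O hDB hOs] at key

end ranks

end Vale.Agent.P054.T2.H455
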