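import Vale.Agent.P054.T2.H455.SAD3

/-!
# P054 / T2, (S-AD) of helper524, part 4: the output in the form of helper441's `stab_side_r`

`stab_side_r'`, `stab_side_s'`: `hstab` and `OverK` for `S₁.Pr e`, `S₂.Pr e.swap` from `ZData` alone
(no triple family, no [DOM]).
-/

set_option linter.unusedSectionVars false

open MvPolynomial Module

namespace Vale.Agent.P054.T2.H455

open Vale.Agent.P054.T2.H686 Vale.Agent.P054.T2.H580 Vale.Agent.P054.T2.SecC
open Vale.Agent.P054.T2.H930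
open Vale.Agent.P054.T2.H441 (cD dM zB rot yP chg chg_X dM_C dM_X der_eq_mul der_skew der_zB
  dM_algHom dirV dirV_eq_span zB_mat js jr)
open Vale.Agent.P054.T2.H588 (mat mat_orth KK pv)
open Vale.Agent.P054.T2.H431 (constF mem_constF)

section block

theorem rename_congr' {L σ τ : Type*} [CommRing L] {f g : σ → τ} (h : ∀ x, f x = g x)
    (P : MvPolynomial σ L) : rename f P = rename g P := by
  rw [show f = g from funext h]

variable {L : Type*} [Field L] {τ α β : Type*} [Fintype τ] [DecidableEq τ] [Fintype α]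
  [DecidableEq α] [Fintype β] [DecidableEq β]

/-- contraction of the germ of a block system to the base block -/
theorem of_block {c c₁ m : ℕ} (ε : τ → α ⊕ β) (j : α → τ) (hj : ∀ a, ε (j a) = Sum.inl a)
    (q : α ⊕ β → L) (F : Fin c → MvPolynomial τ L) (f₁ : Fin c₁ → MvPolynomial α L)
    (h₂ : Fin m → MvPolynomial (α ⊕ β) L)
    (hF : ∀ i, (∃ a, rename ε (F i) = rename Sum.inl (f₁ a)) ∨ ∃ a, rename ε (F i) = h₂ a)
    (hf0 : ∀ i, eval (q ∘ Sum.inl) (f₁ i) = 0) (hh0 : ∀ i, eval q (h₂ i) = 0)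
    (hind₁ : LinearIndependent L (fun i => grad (q ∘ Sum.inl) (f₁ i)))
    (hind₂ : LinearIndependent L (fun (i : Fin m) (z : β) => eval q (pderiv (Sum.inr z) (h₂ i))))
    {P : MvPolynomial α L} (hP : rename j P ∈ germ (q ∘ ε) F) : P ∈ germ (q ∘ Sum.inl) f₁ := by
  let F' : Fin (c₁ + m) → MvPolynomial (α ⊕ β) L :=
    Fin.append (fun i => rename Sum.inl (f₁ i)) h₂
  have hl : ∀ i, F' (Fin.castAdd m i) = rename Sum.inl (f₁ i) := fun i => Fin.append_left _ _ i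
  have hr : ∀ i, F' (Fin.natAdd c₁ i) = h₂ i := fun i => Fin.append_right _ _ i
  have h1 : germ (q ∘ ε) F ≤ (germ q F').comap (rename (R := L) ε) := by
    refine germ_le_comap (rename ε) (fun G => ?_) (fun i => ?_)
    · rw [eval_rename]
    · rcases hF i with ⟨a, ha⟩ | ⟨a, ha⟩
      · rw [ha, ← hl a]; exact f_mem_germ q F' _
      · rw [ha, ← hr a]; exact f_mem_germ q F' _
  have h2 : rename ε (rename j P) ∈ germ q F' := h1 hP
  have h3 : rename ε (rename j P) = rename Sum.inl P := by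
    rw [rename_rename]
    exact rename_congr' (fun a => hj a) P
  rw [h3] at h2
  have h4 := H395.comap_germ q f₁ F' hl
    (fun i => by
      refine Fin.addCases (fun i => ?_) (fun i => ?_) i
      · rw [hl, eval_rename]; exact hf0 i
      · rw [hr]; exact hh0 i)
    hind₁
    (by
      have : (fun (i : Fin m) (z : β) => eval q (pderiv (Sum.inr z) (F' (Fin.natAdd c₁ i)))) =
          fun i z => eval q (pderiv (Sum.inr z) (h₂ i)) := by
        funext i z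
        rw [hr]
      rw [this]
      exact hind₂)
  have h5 : P ∈ (germ q F').comap (rename (R := L) (Sum.inl : α → α ⊕ β)) := h2
  rw [h4] at h5
  exact h5

end block

variable {n : ℕ}

/-- `(g, s, r) ↦ ((g, s), r)` -/
def eps1 (n : ℕ) : Crd n ⊕ (Pt n ⊕ Pt n) → (Crd n ⊕ Pt n) ⊕ Pt n
  | Sum.inl x => Sum.inl (Sum.inl x)
  | Sum.inr (Sum.inl b) => Sum.inl (Sum.inr b)
  | Sum.inr (Sum.inr b) => Sum.inr b

/-- `(g, s, r) ↦ ((g, r), s)` -/
def eps2 (n : ℕ) : Crd n ⊕ (Pt n ⊕ Pt n) → (Crd n ⊕ Pt n) ⊕ Pt n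
  | Sum.inl x => Sum.inl (Sum.inl x)
  | Sum.inr (Sum.inr b) => Sum.inl (Sum.inr b)
  | Sum.inr (Sum.inl b) => Sum.inr b

/-- `(g, r) ↦ ((g, _), r)` -/
def kap1 (n : ℕ) : Crd n ⊕ Pt n → (Crd n ⊕ Pt n) ⊕ Pt n := Sum.map Sum.inl id

theorem kap1_injective (n : ℕ) : Function.Injective (kap1 n) :=
  Function.Injective.sumMap Sum.inl_injective Function.injective_id

section edge

variable {E0 E1 E2 : Finset (ZZ n × ZZ n)} {wt : Crd n ⊕ Pt n → ℕ} {N c₀ c₁ c₂ σ₁ σ₂ : ℕ}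
  (Z : ZData ℝ n E0 E1 E2 wt N c₀ c₁ c₂ σ₁ σ₂)

/-- the vertical gradients of the second hat, seen over the first -/
theorem ind_kap {c : ℕ} (h' : Fin c → MvPolynomial (Crd n ⊕ Pt n) ℝ)
    (q : (Crd n ⊕ Pt n) ⊕ Pt n → ℝ) (p : Crd n ⊕ Pt n → ℝ) (hq : q ∘ kap1 n = p)
    (h : LinearIndependent ℝ (fun i => fun b => eval p (pderiv (Sum.inr b) (h' i)))) :
    LinearIndependent ℝ (fun (i : Fin c) (z : Pt n) =>
      eval q (pderiv (Sum.inr z) (rename (kap1 n) (h' i)))) := by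
  have h1 : (fun (i : Fin c) (z : Pt n) => eval q (pderiv (Sum.inr z) (rename (kap1 n) (h' i)))) =
      fun i b => eval p (pderiv (Sum.inr b) (h' i)) := by
    funext i z
    have h2 : pderiv (Sum.inr z) (rename (kap1 n) (h' i)) =
        rename (kap1 n) (pderiv (Sum.inr z) (h' i)) :=
      pderiv_rename (kap1_injective n) (Sum.inr z) (h' i)
    rw [h2, eval_rename, hq]
  rw [h1]
  exact h

/-- **contraction of the germ of `Z⁺` to the first hat** -/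
theorem hat1_of_edge {e : ZZ n × ZZ n} (he : e ∈ E2) {P : MvPolynomial (Crd n ⊕ Pt n) ℝ}
    (hP : rename (j1 n) P ∈ germ (edgePt e.1 e.2) Z.F) : P ∈ germ (xh e) (phiZ Z) := by
  have hadj := Z.adj e (Z.mem0 he)
  let q : (Crd n ⊕ Pt n) ⊕ Pt n → ℝ := Sum.elim (xh e) (ptc e.2)
  have hqε : q ∘ eps1 n = edgePt e.1 e.2 := by
    funext x
    rcases x with x | x | x <;> rfl
  have hqk : q ∘ kap1 n = hatPt e.2 (mu e.2 e.1) := by
    funext x
    rcases x with x | x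
    · show meet e.1 e.2 x = meet e.2 e.1 x
      rw [meet_comm hadj.1 hadj.2]
    · rfl
  have hql : q ∘ Sum.inl = xh e := rfl
  rw [← hqε] at hP
  rw [← hql]
  refine of_block (eps1 n) (j1 n) ?_ q Z.F (phiZ Z) (fun i => rename (kap1 n) (Z.h' i)) ?_ ?_ ?_
    ?_ ?_ hP
  · intro a
    rcases a with a | a <;> rfl
  · intro i
    rcases sysZ_cases Z.f Z.h Z.h' i with ⟨j, hj⟩ | ⟨j, hj⟩ | ⟨j, hj⟩
    · left
      refine ⟨Fin.castAdd c₁ j, ?_⟩
      rw [show Z.F i = _ from hj, phiZ_left, rename_rename, rename_rename]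
      rfl
    · left
      refine ⟨Fin.natAdd c₀ j, ?_⟩
      rw [show Z.F i = _ from hj, phiZ_right, rename_rename]
      refine rename_congr' (fun x => ?_) _
      rcases x with x | x <;> rfl
    · right
      refine ⟨j, ?_⟩
      rw [show Z.F i = _ from hj, rename_rename]
      refine rename_congr' (fun x => ?_) _
      rcases x with x | x <;> rfl
  · intro i
    exact phiZ_zero Z (Z.mem0 he) i
  · intro i
    rw [eval_rename, hqk]
    exact Z.h'_zero i e (Z.mem0 he)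
  · exact phiZ_ind Z he
  · exact ind_kap Z.h' q _ hqk (Z.h'_ind e he)

/-- **contraction of the germ of `Z⁺` to the second hat** -/
theorem hat2_of_edge {e : ZZ n × ZZ n} (he : e ∈ E2) {P : MvPolynomial (Crd n ⊕ Pt n) ℝ}
    (hP : rename (j2 n) P ∈ germ (edgePt e.1 e.2) Z.F) :
    P ∈ germ (xh e.swap) (phiZ (zswap Z)) := by
  have hadj := Z.adj e (Z.mem0 he)
  have hes : e.swap ∈ swp E2 := mem_swp.2 (by rwa [Prod.swap_swap])
  let q : (Crd n ⊕ Pt n) ⊕ Pt n → ℝ := Sum.elim (xh e.swap) (ptc e.1)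
  have hqε : q ∘ eps2 n = edgePt e.1 e.2 := by
    funext x
    rcases x with x | x | x
    · show meet e.2 e.1 x = meet e.1 e.2 x
      rw [meet_comm hadj.1 hadj.2]
    · rfl
    · rfl
  have hqk : q ∘ kap1 n = hatPt e.1 (mu e.1 e.2) := by
    funext x
    rcases x with x | x
    · show meet e.2 e.1 x = meet e.1 e.2 x
      rw [meet_comm hadj.1 hadj.2]
    · rfl
  have hql : q ∘ Sum.inl = xh e.swap := rfl
  rw [← hqε] at hP
  rw [← hql]
  refine of_block (eps2 n) (j2 n) ?_ q Z.F (phiZ (zswap Z)) (fun i => rename (kap1 n) (Z.h i)) ?_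
    ?_ ?_ ?_ ?_ hP
  · intro a
    rcases a with a | a <;> rfl
  · intro i
    rcases sysZ_cases Z.f Z.h Z.h' i with ⟨j, hj⟩ | ⟨j, hj⟩ | ⟨j, hj⟩
    · left
      refine ⟨Fin.castAdd c₂ j, ?_⟩
      rw [show Z.F i = _ from hj, phiZ_left, rename_rename, rename_rename]
      rfl
    · right
      refine ⟨j, ?_⟩
      rw [show Z.F i = _ from hj, rename_rename]
      refine rename_congr' (fun x => ?_) _
      rcases x with x | x <;> rfl
    · left
      refine ⟨Fin.natAdd c₀ j, ?_⟩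
      rw [show Z.F i = _ from hj, phiZ_right, rename_rename]
      refine rename_congr' (fun x => ?_) _
      rcases x with x | x <;> rfl
  · intro i
    exact phiZ_zero (zswap Z) ((zswap Z).mem0 hes) i
  · intro i
    rw [eval_rename, hqk]
    exact Z.h_zero i e (Z.mem0 he)
  · exact phiZ_ind (zswap Z) hes
  · exact ind_kap Z.h q _ hqk (Z.h_ind e he)

theorem edge_iff_s {e : ZZ n × ZZ n} (he : e ∈ E2) (G : MvPolynomial (ZI n) ℝ) :
    rename (js n) G ∈ germ (edgePt e.1 e.2) Z.F ↔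
      rename (Sum.inr : Pt n → Crd n ⊕ Pt n) G ∈ germ (xh e) (phiZ Z) := by
  have h1 : rename (js n) G = rename (j1 n) (rename (Sum.inr : ZI n → Crd n ⊕ Pt n) G) := by
    rw [rename_rename]; rfl
  rw [h1]
  constructor
  · intro h
    exact hat1_of_edge Z he h
  · intro h
    exact edge_hat1_le Z.f Z.h Z.h' e.1 e.2 _ h

theorem edge_iff_r {e : ZZ n × ZZ n} (he : e ∈ E2) (G : MvPolynomial (ZI n) ℝ) :
    rename (jr n) G ∈ germ (edgePt e.1 e.2) Z.F ↔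
      rename (Sum.inr : Pt n → Crd n ⊕ Pt n) G ∈ germ (xh e.swap) (phiZ (zswap Z)) := by
  have h1 : rename (jr n) G = rename (j2 n) (rename (Sum.inr : ZI n → Crd n ⊕ Pt n) G) := by
    rw [rename_rename]; rfl
  rw [h1]
  constructor
  · intro h
    exact hat2_of_edge Z he h
  · intro h
    exact edge_hat2_le Z.f Z.h Z.h' e.1 e.2 (Z.adj e (Z.mem0 he)).1 (Z.adj e (Z.mem0 he)).2 _ h

variable {k : Type*} [CommRing k] [Algebra k ℝ]

/-- **(S-AD) for `s`, on `Z⁺`** -/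
theorem edge_stab_s {W : ℕ} (hW : ∀ y, wt (Sum.inr y) = W) {e : ZZ n × ZZ n} (he : e ∈ E2)
    (B : E n ≃ₗᵢ[ℝ] E n)
    (hpt : ∀ e' ∈ E1, ∃ s : E n × E n, e'.1 = zt B s ∧ KK (constF k ℝ) s)
    {Pr : Ideal (MvPolynomial (ZI n) ℝ)}
    (hK : ∀ G, rename (js n) G ∈ germ (edgePt e.1 e.2) Z.F ↔ G ∈ Pr) (D : Derivation k ℝ ℝ)
    (h : MvPolynomial (ZI n) ℝ) (hh : chg (mat B) h ∈ Pr) : chg (mat B) (cD D h) ∈ Pr := by
  rw [← hK, edge_iff_s Z he] at hh ⊢
  refine hat_stab_s Z hW he D (mat_orth B) (fun e' he' => ?_) hh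
  obtain ⟨s, hs, ks⟩ := hpt e' he'
  exact ⟨pv s, by rw [zB_mat, hs], fun j => ks.1 j D, fun j => ks.2 j D⟩

/-- **(S-AD) for `r`, on `Z⁺`** -/
theorem edge_stab_r {W : ℕ} (hW : ∀ y, wt (Sum.inr y) = W) {e : ZZ n × ZZ n} (he : e ∈ E2)
    (B : E n ≃ₗᵢ[ℝ] E n)
    (hpt : ∀ e' ∈ E1, ∃ r : E n × E n, e'.2 = zt B r ∧ KK (constF k ℝ) r)
    {Pr : Ideal (MvPolynomial (ZI n) ℝ)}
    (hK : ∀ G, rename (jr n) G ∈ germ (edgePt e.1 e.2) Z.F ↔ G ∈ Pr) (D : Derivation k ℝ ℝ)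
    (h : MvPolynomial (ZI n) ℝ) (hh : chg (mat B) h ∈ Pr) : chg (mat B) (cD D h) ∈ Pr := by
  rw [← hK, edge_iff_r Z he] at hh ⊢
  refine hat_stab_s (zswap Z) hW (mem_swp.2 (by rwa [Prod.swap_swap])) D (mat_orth B)
    (fun e' he' => ?_) hh
  obtain ⟨s, hs, ks⟩ := hpt e'.swap (mem_swp.1 he')
  exact ⟨pv s, by rw [zB_mat, ← hs]; rfl, fun j => ks.1 j D, fun j => ks.2 j D⟩

/-- **[STAB] for `r` from `ZData` alone**, in the output form of helper441's `stab_side_r` -/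
theorem stab_side_r' {W' : ℕ} (hW : ∀ y, wt (Sum.inr y) = W') {e : ZZ n × ZZ n} (he : e ∈ E2)
    (B : E n ≃ₗᵢ[ℝ] E n)
    (hpt : ∀ e' ∈ E1, ∃ s r : E n × E n, e'.1 = zt B s ∧ e'.2 = zt B r ∧ KK (constF k ℝ) s ∧
      KK (constF k ℝ) r)
    {A : Finset (ZZ n × ZZ n)} {W D σ v : ℕ} (S₁ : Side n A W D σ v)
    (hK : ∀ G, rename (jr n) G ∈ germ (edgePt e.1 e.2) Z.F ↔ G ∈ S₁.Pr e) :
    (∀ D : Derivation k ℝ ℝ, ∀ h, chg (mat B) h ∈ S₁.Pr e → chg (mat B) (cD D h) ∈ S₁.Pr e) ∧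
    ∃ S : Set (E n × E n), (∀ v ∈ S, KK (constF k ℝ) v) ∧
      S₁.V e = Submodule.span ℝ (zt B '' S) := by
  have h1 : ∀ D : Derivation k ℝ ℝ, ∀ h, chg (mat B) h ∈ S₁.Pr e →
      chg (mat B) (cD D h) ∈ S₁.Pr e := edge_stab_r Z hW he B (fun e' he' => by
    obtain ⟨s, r, hs, hr, ks, kr⟩ := hpt e' he'
    exact ⟨r, hr, kr⟩) hK
  refine ⟨h1, ?_⟩
  obtain ⟨s, r, hs, hr, ks, kr⟩ := hpt e (Z.sub' he)
  have h2 := dirV_eq_span B (S₁.Pr e) h1 r kr
  rw [← hr] at h2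
  exact h2

/-- **[STAB] for `s` from `ZData` alone**, in the output form of helper441's `stab_side_s` -/
theorem stab_side_s' {W' : ℕ} (hW : ∀ y, wt (Sum.inr y) = W') {e : ZZ n × ZZ n} (he : e ∈ E2)
    (B : E n ≃ₗᵢ[ℝ] E n)
    (hpt : ∀ e' ∈ E1, ∃ s r : E n × E n, e'.1 = zt B s ∧ e'.2 = zt B r ∧ KK (constF k ℝ) s ∧
      KK (constF k ℝ) r)
    {A : Finset (ZZ n × ZZ n)} {W D σ v : ℕ} (S₂ : Side n A W D σ v)
    (hK : ∀ G, rename (js n) G ∈ germ (edgePt e.1 e.2) Z.F ↔ G ∈ S₂.Pr e.swap) :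
    (∀ D : Derivation k ℝ ℝ, ∀ h, chg (mat B) h ∈ S₂.Pr e.swap →
      chg (mat B) (cD D h) ∈ S₂.Pr e.swap) ∧
    ∃ S : Set (E n × E n), (∀ v ∈ S, KK (constF k ℝ) v) ∧
      S₂.V e.swap = Submodule.span ℝ (zt B '' S) := by
  have h1 : ∀ D : Derivation k ℝ ℝ, ∀ h, chg (mat B) h ∈ S₂.Pr e.swap →
      chg (mat B) (cD D h) ∈ S₂.Pr e.swap := edge_stab_s Z hW he B (fun e' he' => by
    obtain ⟨s, r, hs, hr, ks, kr⟩ := hpt e' he'
    exact ⟨s, hs, ks⟩) hK
  refine ⟨h1, ?_⟩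
  obtain ⟨s, r, hs, hr, ks, kr⟩ := hpt e (Z.sub' he)
  have h2 := dirV_eq_span B (S₂.Pr e.swap) h1 s ks
  rw [← hs] at h2
  exact h2

end edge

end Vale.Agent.P054.T2.H455
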