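import Vale.Agent.P054.T2.H455.SAD4
import Vale.Agent.P054.T2.H441.BD

/-!
# P054 / T2: the Prop `H441.StabS n`, proved from `ZData` alone ((S-AD) of helper524); no [DOM]
-/

set_option linter.unusedSectionVars false
set_option linter.unusedVariables false

open MvPolynomial

namespace Vale.Agent.P054.T2.H455

open Vale.Agent.P054.T2.H686 Vale.Agent.P054.T2.H580 Vale.Agent.P054.T2.SecC
open Vale.Agent.P054.T2.H930
open Vale.Agent.P054.T2.H441 (cD chg js jr Ez_pts StabS)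
open Vale.Agent.P054.T2.H588 (mat KK kP)
open Vale.Agent.P054.T2.H431 (constF)
open Vale.Agent.P054.T2.H307 (wB)

/-- **[STAB]**: the primes of `s` and `r` of `Z⁺` are stable under the A-derivatives, at every edge
of `E2` -/
theorem stabS (n : ℕ) : StabS n := by
  refine ⟨0, 0, fun C hC q hq L K₀ => ⟨0, fun β hβ k C₁ k₀ i₀ i₁ Wg E' v A E1 E2 c₀ c₁ c₂ σ₁ σ₂ v₁
    v₂ Z hZ h1 h2 h3 P B C' hB hn hE => ?_⟩⟩
  have hpt : ∀ e' ∈ E1, ∃ s r : E n × E n, e'.1 = zt B s ∧ e'.2 = zt B r ∧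
      KK (constF (kP P) ℝ) s ∧ KK (constF (kP P) ℝ) r := fun e' he' => Ez_pts (hE (Z.sub he'))
  refine ⟨⟨∅, Finset.empty_subset _, by simp, fun e he _ D h hh => ?_⟩,
    ⟨∅, Finset.empty_subset _, by simp, fun e he _ D h hh => ?_⟩⟩
  · exact edge_stab_s (k := kP P) Z (W := (( β ^ L) ^ k₀)) (fun y => rfl) he B
      (fun e' he' => by
        obtain ⟨s, r, hs, hr, ks, kr⟩ := hpt e' he'
        exact ⟨s, hs, ks⟩)
      (Pr := (germ (edgePt e.1 e.2) Z.F).comap (rename (R := ℝ) (js n)))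
      (fun G => Iff.rfl) D h hh
  · exact edge_stab_r (k := kP P) Z (W := (( β ^ L) ^ k₀)) (fun y => rfl) he B
      (fun e' he' => by
        obtain ⟨s, r, hs, hr, ks, kr⟩ := hpt e' he'
        exact ⟨r, hr, kr⟩)
      (Pr := (germ (edgePt e.1 e.2) Z.F).comap (rename (R := ℝ) (jr n)))
      (fun G => Iff.rfl) D h hh

end Vale.Agent.P054.T2.H455
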