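import Vale.Agent.P054.T2.H428.EdgeB
import Vale.Agent.P054.T2.H83.Vzero
import Vale.Agent.P054.T2.H686.Par

/-!
# P054 / T2, the field `ste` of `EdgeB` (stereographic case)

`e = (s, r)`, `s - r ∉ V`, `dim V = n + 1`, `ζ` injective on `V`, `s'` the point of `r + V` above
`ζ(s)`, `p = s' - s = (0, p₂)`.  Then `Bf p (r' - s') = (ζ₀(r') - ζ₀(s)) φ(u)` with the affine
function `φ = p₂₀ + ∑ p₂ᵢ uᵢ`.

* `phi_not_mem`: `φ` does not lie in the prime of the hat-leaf germ.
* `ste_pos`: if the vertical dimension is positive this case does not occur.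
-/

set_option autoImplicit false
set_option linter.all false

open MvPolynomial Module Finset

namespace Vale.Agent.P054.T2.H455

open SecC
open H686 (mu Qf Bf)
open H930 (germ grad)

variable {n : ℕ} {A : Finset (ZZ n × ZZ n)} {W D σ v : ℕ}

/-- the affine function `p₂₀ + ∑ p₂ᵢ uᵢ` -/
noncomputable def phiL (p : ZZ n) : MvPolynomial (Fin n) ℝ :=
  C (p.2 0) + ∑ i : Fin n, C (p.2 i.succ) * X i

theorem eval_phiL (p s r : ZZ n) (h0 : s.1 0 ≠ r.1 0) (hp : p.1 = 0) :
    (s.1 0 - r.1 0) * eval (mu s r) (phiL p) = Bf p (s - r) := by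
  have hne : s.1 0 - r.1 0 ≠ 0 := sub_ne_zero.2 h0
  have h1 : ∀ i : Fin n, mu s r i * (s.1 0 - r.1 0) = s.1 i.succ - r.1 i.succ := by
    intro i
    unfold mu
    rw [div_mul_cancel₀ _ hne]
  have h2 : eval (mu s r) (phiL p) = p.2 0 + ∑ i : Fin n, p.2 i.succ * mu s r i := by
    simp [phiL, map_sum]
  have h3 : Bf p (s - r) = ∑ i, (s - r).1 i * p.2 i := by
    unfold Bf
    refine Finset.sum_congr rfl fun i _ => ?_
    rw [hp, Pi.zero_apply]
    ring
  rw [h2, h3, Fin.sum_univ_succ, mul_add, Finset.mul_sum]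
  have h4 : ∀ i : Fin n, (s.1 0 - r.1 0) * (p.2 i.succ * mu s r i) =
      (s - r).1 i.succ * p.2 i.succ := by
    intro i
    rw [Prod.fst_sub, Pi.sub_apply, ← h1 i]
    ring
  rw [Finset.sum_congr rfl fun i _ => h4 i, Prod.fst_sub, Pi.sub_apply]

theorem prime_P (S : Side n A W D σ v) {e : ZZ n × ZZ n} (he : e ∈ A) : (S.P e).IsPrime :=
  H930.germ_isPrime (S.hzero e he) (S.hind e he)

/-- the polynomial identity behind `phi_not_mem` -/
theorem linL_eq (p s r : ZZ n) (hp : p.1 = 0) :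
    (rename (R := ℝ) (Sum.inr : ZI n → HL n) (linL (Side.BfL p) r)) =
      (X (Sum.inr (Sum.inl 0)) - C (s.1 0)) * rename (R := ℝ) Sum.inl (phiL p) +
        (∑ i : Fin n, C (p.2 i.succ) * incL s i) + C (Bf p (s - r)) := by
  classical
  have hB : ∀ x : ZZ n, Bf p x = ∑ i, x.1 i * p.2 i := by
    intro x
    unfold Bf
    refine Finset.sum_congr rfl fun i _ => ?_
    rw [hp, Pi.zero_apply]
    ring
  have h1 : ∀ i : Fin (n + 1), Side.BfL p (Pi.single i 1, 0) = p.2 i := by
    intro i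
    show Bf p (Pi.single i 1, 0) = p.2 i
    rw [hB]
    simp [Pi.single_apply]
  have h2 : ∀ i : Fin (n + 1), Side.BfL p (0, Pi.single i 1) = 0 := by
    intro i
    show Bf p (0, Pi.single i 1) = 0
    rw [hB]
    simp
  have h3 : Side.BfL p r = Bf p r := rfl
  have h4 : Bf p (s - r) = (∑ i, s.1 i * p.2 i) - Bf p r := by
    rw [hB, hB, ← Finset.sum_sub_distrib]
    refine Finset.sum_congr rfl fun i _ => ?_
    rw [Prod.fst_sub, Pi.sub_apply]
    ring
  unfold linL
  rw [h3, h4]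
  simp only [h1, h2, map_sub, map_add, map_sum, map_mul, rename_C, rename_X, C_0, zero_mul,
    Finset.sum_const_zero, add_zero]
  unfold phiL incL
  simp only [map_add, map_sum, map_mul, rename_C, rename_X]
  rw [Fin.sum_univ_succ, Fin.sum_univ_succ (f := fun i => (C (s.1 i) : MvPolynomial (HL n) ℝ) *
    C (p.2 i))]
  have h5 : (X (Sum.inr (Sum.inl 0)) - C (s.1 0)) * (C (p.2 0) + ∑ i : Fin n, C (p.2 i.succ) *
      X (Sum.inl i)) = (X (Sum.inr (Sum.inl 0)) - C (s.1 0)) * C (p.2 0) +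
      ∑ i : Fin n, C (p.2 i.succ) * (X (Sum.inl i) * (X (Sum.inr (Sum.inl 0)) - C (s.1 0)) :
        MvPolynomial (HL n) ℝ) := by
    rw [mul_add, Finset.mul_sum]
    congr 1
    refine Finset.sum_congr rfl fun i _ => ?_
    ring
  rw [h5]
  have h6 : (∑ i : Fin n, C (p.2 i.succ) * (X (Sum.inr (Sum.inl i.succ)) - C (s.1 i.succ) -
      X (Sum.inl i) * (X (Sum.inr (Sum.inl 0)) - C (s.1 0))) : MvPolynomial (HL n) ℝ) =
      (∑ i : Fin n, C (p.2 i.succ) * X (Sum.inr (Sum.inl i.succ))) -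
        (∑ i : Fin n, C (s.1 i.succ) * C (p.2 i.succ)) -
        ∑ i : Fin n, C (p.2 i.succ) * (X (Sum.inl i) * (X (Sum.inr (Sum.inl 0)) - C (s.1 0))) := by
    rw [← Finset.sum_sub_distrib, ← Finset.sum_sub_distrib]
    refine Finset.sum_congr rfl fun i _ => ?_
    ring
  rw [h6]
  ring

/-- `φ` does not lie in the prime of the hat-leaf germ -/
theorem phi_not_mem (S : Side n A W D σ v) {e : ZZ n × ZZ n} (he : e ∈ A)
    (hw : e.1 - e.2 ∉ S.V e) (hdim : finrank ℝ (S.V e) = n + 1) (hinj : ZInj (S.V e))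
    {s' : ZZ n} (hs' : s'.1 = e.1.1) (hs2 : s' - e.2 ∈ S.V e) :
    rename (R := ℝ) Sum.inl (phiL (s' - e.1)) ∉ S.P e := by
  intro hmem
  set p := s' - e.1 with hpdef
  have hp : p.1 = 0 := by rw [hpdef, Prod.fst_sub, hs', sub_self]
  have h1 : (∑ i : Fin n, C (p.2 i.succ) * incL e.1 i) ∈ S.P e :=
    Ideal.sum_mem _ fun i _ => Ideal.mul_mem_left _ _ (S.hinc e he i)
  have h2 := linL_eq p e.1 e.2 hp
  -- the constant vanishes
  have h3 : Bf p (e.1 - e.2) = 0 := by
    have h4 := congrArg (eval (hx e.1 e.2)) h2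
    rw [map_add, map_add, map_mul, eval_C, H930.eval_eq_zero_of_mem_germ (S.hzero e he) h1,
      H930.eval_eq_zero_of_mem_germ (S.hzero e he) hmem, eval_rename] at h4
    have h5 : hx e.1 e.2 ∘ Sum.inr = pt e.2 := rfl
    rw [h5, eval_linL, sub_self, mul_zero, zero_add, zero_add] at h4
    exact h4.symm
  have h6 : linL (Side.BfL p) e.2 ∈ S.Pr e := by
    show rename (R := ℝ) Sum.inr (linL (Side.BfL p) e.2) ∈ S.P e
    rw [h2, h3, C_0, add_zero]
    exact Ideal.add_mem _ (Ideal.mul_mem_left _ _ hmem) h1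
  -- `ζ(V)` is everything
  obtain ⟨Gm, hG1, hG2⟩ := H686.exists_G (S.V e) hinj hdim
  have h7 := S.mem_V.1 (hG1 p.2) _ h6
  have h8 : Bf p (Gm p.2) = ∑ i, p.2 i * p.2 i := by
    unfold Bf
    refine Finset.sum_congr rfl fun i _ => ?_
    rw [hp, hG2, Pi.zero_apply]
    ring
  have h9 : ∑ i, p.2 i * p.2 i = 0 := by rw [← h8]; exact h7
  have h10 : p = 0 := by
    refine Prod.ext hp ?_
    funext i
    have := (Finset.sum_eq_zero_iff_of_nonneg (fun i _ => mul_self_nonneg (p.2 i))).1 h9 i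
      (Finset.mem_univ i)
    exact mul_self_eq_zero.1 this
  apply hw
  have h11 : e.1 = s' := (sub_eq_zero.1 h10).symm
  rw [h11]
  exact hs2

/-- a failure of `Ste` gives a zero of `φ` -/
theorem phi_eq_zero {e : ZZ n × ZZ n} (h0 : e.1.1 0 ≠ e.2.1 0) {s' : ZZ n}
    (hs' : s'.1 = e.1.1) (hB : Bf (s' - e.1) (e.2 - s') = 0) :
    eval (mu e.1 e.2) (phiL (s' - e.1)) = 0 := by
  have hp : (s' - e.1).1 = 0 := by rw [Prod.fst_sub, hs', sub_self]
  have h1 := eval_phiL (s' - e.1) e.1 e.2 h0 hp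
  have h2 : Bf (s' - e.1) (e.1 - e.2) = 0 := by
    have h3 : e.1 - e.2 = (-1 : ℝ) • (e.2 - s') + (-1 : ℝ) • (s' - e.1) := by
      rw [neg_one_smul, neg_one_smul]
      abel
    rw [h3, H192.Bf_add_right, H686.Bf_smul_right, H686.Bf_smul_right, hB, H192.Bf_self]
    have h4 : Qf (s' - e.1) = 0 := by
      unfold Qf
      refine Finset.sum_eq_zero fun i _ => ?_
      rw [hp, Pi.zero_apply, zero_mul]
    rw [h4]
    ring
  rw [h2] at h1
  exact (mul_eq_zero.1 h1).resolve_left (sub_ne_zero.2 h0)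

/-- **generic vertical vector** -/
theorem exists_vert_gen (S : Side n A W D σ v) {e : ZZ n × ZZ n} (he : e ∈ A) (hv : 0 < v) :
    ∃ R : ZI n → MvPolynomial (HL n) ℝ, (∃ z, R z ∉ S.P e) ∧
      ∀ G ∈ S.P e, ∑ z, R z * pderiv (Sum.inr z) G ∈ S.P e := by
  classical
  have hprime := prime_P S he
  have hdom : IsDomain (MvPolynomial (HL n) ℝ ⧸ S.P e) := Ideal.Quotient.isDomain _
  have hcard : 2 * (n + 1) - v < Fintype.card (ZI n) := by
    have h1 : Fintype.card (ZI n) = 2 * (n + 1) := by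
      simp [ZI]; ring
    have h2 := S.hv
    omega
  let q := Ideal.Quotient.mk (S.P e)
  let M : Matrix (Fin (2 * (n + 1) - v)) (ZI n) (MvPolynomial (HL n) ℝ ⧸ S.P e) :=
    Matrix.of fun j z => q (pderiv (Sum.inr z) (S.F e.1 (Fin.natAdd _ j)))
  have h2 : ¬ Function.Injective M.mulVecLin := by
    intro hi
    have := card_le_of_injective (MvPolynomial (HL n) ℝ ⧸ S.P e) M.mulVecLin hi
    rw [Fintype.card_fin] at this
    omega
  rw [injective_iff_map_eq_zero] at h2
  push Not at h2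
  obtain ⟨x, hx, hx0⟩ := h2
  choose R hR using fun z => Ideal.Quotient.mk_surjective (I := S.P e) (x z)
  refine ⟨R, ?_, ?_⟩
  · by_contra hall
    push Not at hall
    apply hx0
    funext z
    rw [← hR z]
    exact Ideal.Quotient.eq_zero_iff_mem.2 (hall z)
  · let DR : Derivation ℝ (MvPolynomial (HL n) ℝ) (MvPolynomial (HL n) ℝ) :=
      ∑ z, R z • pderiv (Sum.inr z)
    have hDR : ∀ G, DR G = ∑ z, R z * pderiv (Sum.inr z) G := by
      intro G
      have h1 := map_sum (Derivation.coeFnAddMonoidHom (R := ℝ) (A := MvPolynomial (HL n) ℝ)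
        (M := MvPolynomial (HL n) ℝ)) (fun z => R z • pderiv (Sum.inr z)) Finset.univ
      have h2 := congrFun h1 G
      rw [Finset.sum_apply] at h2
      exact h2
    intro G hG
    rw [← hDR]
    refine H930.derivation_mem_germ DR (fun i => ?_) hG
    rw [hDR]
    refine Fin.addCases (fun i => ?_) (fun j => ?_) i
    · have h5 : ∀ z, pderiv (Sum.inr z) (S.F e.1 (Fin.castAdd _ i)) = 0 := by
        intro z
        rw [S.hleft]
        exact H930.pderiv_rename_notMem Sum.inl _ _ (by rintro ⟨a, ha⟩; cases ha)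
      simp only [h5, mul_zero, Finset.sum_const_zero]
      exact Ideal.zero_mem _
    · have h6 := congrFun hx j
      rw [Matrix.mulVecLin_apply] at h6
      simp only [Matrix.mulVec, dotProduct, M, Matrix.of_apply, Pi.zero_apply] at h6
      apply Ideal.Quotient.eq_zero_iff_mem.1
      refine Eq.trans ?_ h6
      rw [map_sum]
      refine Finset.sum_congr rfl fun z _ => ?_
      rw [map_mul]
      have h7 : Ideal.Quotient.mk (germ (SecC.hx e.1 e.2) (S.F e.1)) (R z) = x z := hR z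
      rw [h7]
      exact mul_comm _ _

end Vale.Agent.P054.T2.H455
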