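import Vale.Agent.P054.T2.H580.FiltDense

/-!
# P054 / T2, leaf [SURJ] (S1): the rank of the base points in `g`-space

`P c ⊆ K[γ ⊕ ρ]` (variables `g`, `s`), weights 1 on `g`, `W` on `s`.  If `v` of the `s`-coordinates
are algebraically independent over `K[γ]/Q c`, `Q c = P c ∩ K[γ]`, the base points have `e`-dimensional
jets in `g`-space, and `hilb_W (⨅ P c) n ≤ D (n+1)^(e+v)`, then
`rkY (base points in g-space) T ≤ C D W^v (T+1)^e` for every `T`.
-/

open MvPolynomial Module Finset

namespace Vale.Agent.P054.T2.H455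

open H441 (hF rkY resA) 
open H163 (m)
open H580 (hilbF Vw IsFilt)

variable {K : Type*} [Field K] {γ ρ : Type*}

/-- weight 1 on `γ`, `W` on `ρ` -/
def wt (γ ρ : Type*) (W : ℕ) : γ ⊕ ρ → ℕ := Sum.elim (fun _ => 1) (fun _ => W)

/-- `K[γ][Z_1..Z_v] → K[γ ⊕ ρ]`, `Z_l ↦ s_(j l)` -/
noncomputable def emb {v : ℕ} (j : Fin v → ρ) :
    MvPolynomial (Fin v) (MvPolynomial γ K) →+* MvPolynomial (γ ⊕ ρ) K :=
  eval₂Hom (rename Sum.inl : MvPolynomial γ K →ₐ[K] MvPolynomial (γ ⊕ ρ) K).toRingHom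
    (fun l => X (Sum.inr (j l)))

/-- `s_(j 1), .., s_(j v)` are algebraically independent over `K[γ] / (P ∩ K[γ])` modulo `P` -/
def VIndAt (P : Ideal (MvPolynomial (γ ⊕ ρ) K)) {v : ℕ} (j : Fin v → ρ) : Prop :=
  ∀ G : MvPolynomial (Fin v) (MvPolynomial γ K), emb j G ∈ P →
    ∀ α, (rename Sum.inl (coeff α G) : MvPolynomial (γ ⊕ ρ) K) ∈ P

theorem emb_monomial {v : ℕ} (j : Fin v → ρ) (α : Fin v →₀ ℕ) (c : MvPolynomial γ K) :
    emb j (monomial α c) = rename Sum.inl c * ∏ l, X (Sum.inr (j l)) ^ α l := by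
  unfold emb
  rw [coe_eval₂Hom, eval₂_monomial, Finsupp.prod_fintype _ _ (fun _ => pow_zero _)]
  rfl

theorem rename_mem_Vw (W : ℕ) {a : ℕ} {G : MvPolynomial γ K} (hG : G ∈ restrictTotalDegree γ K a) :
    (rename Sum.inl G : MvPolynomial (γ ⊕ ρ) K) ∈ Vw K (wt γ ρ W) a := by
  classical
  rw [H580.mem_Vw]
  intro s hs
  rw [support_rename_of_injective Sum.inl_injective, Finset.mem_image] at hs
  obtain ⟨t, ht, rfl⟩ := hs
  rw [mem_restrictTotalDegree] at hG
  have h1 := (le_totalDegree ht).trans hG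
  refine le_trans (le_of_eq ?_) h1
  rw [Finsupp.weight_apply, Finsupp.sum_mapDomain_index (by simp) (by intros; simp [add_mul])]
  simp [wt]

theorem prod_mem_Vw {v : ℕ} (W : ℕ) (j : Fin v → ρ) (α : Fin v → ℕ) {b : ℕ} (hα : ∀ l, α l ≤ b)
    (s : Finset (Fin v)) :
    (∏ l ∈ s, X (Sum.inr (j l)) ^ α l : MvPolynomial (γ ⊕ ρ) K) ∈
      Vw K (wt γ ρ W) (W * (s.card * b)) := by
  classical
  induction s using Finset.induction_on with
  | empty =>
    rw [Finset.prod_empty, ← C_1]
    exact H580.C_mem_Vw _ _ _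
  | insert l s hl ih =>
    rw [Finset.prod_insert hl, Finset.card_insert_of_notMem hl]
    have h1 : ∀ n, (X (Sum.inr (j l)) ^ n : MvPolynomial (γ ⊕ ρ) K) ∈ Vw K (wt γ ρ W) (W * n) := by
      intro n
      induction n with
      | zero =>
        rw [pow_zero, ← C_1]
        exact H580.C_mem_Vw _ _ _
      | succ n ihn =>
        rw [pow_succ, mul_add, mul_one]
        exact H580.mul_mem_Vw _ ihn (H580.X_mem_Vw (wt γ ρ W) (Sum.inr (j l)))
    have h2 := H580.mul_mem_Vw _ (h1 (α l)) ih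
    refine H580.Vw_mono _ ?_ h2
    have h3 : W * α l ≤ W * b := Nat.mul_le_mul_left _ (hα l)
    calc W * α l + W * (s.card * b) ≤ W * b + W * (s.card * b) := Nat.add_le_add_right h3 _
      _ = W * ((s.card + 1) * b) := by ring

/-- lower bound of the weighted Hilbert function by the one of `P ∩ K[γ]` -/
theorem hilb_lower [Finite γ] [Finite ρ] (P : Ideal (MvPolynomial (γ ⊕ ρ) K)) {v : ℕ}
    (j : Fin v → ρ) (hv : VIndAt P j) {W : ℕ} (hW : W ≠ 0) (a b : ℕ) :
    hF (P.comap (rename Sum.inl : MvPolynomial γ K →ₐ[K] MvPolynomial (γ ⊕ ρ) K)) a * (b + 1) ^ v ≤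
      hilbF (Vw K (wt γ ρ W)) P (a + W * (v * b)) := by
  classical
  have hw : ∀ i, wt γ ρ W i ≠ 0 := by
    intro i
    rcases i with i | i <;> simp [wt, hW]
  have hV : IsFilt (Vw K (wt γ ρ W)) := H580.isFilt_Vw _ hw
  set Q := P.comap (rename Sum.inl : MvPolynomial γ K →ₐ[K] MvPolynomial (γ ⊕ ρ) K) with hQ
  set Wa := (restrictTotalDegree γ K a).map (Ideal.Quotient.mkₐ K Q).toLinearMap with hWa
  have hfinWa : Module.Finite K Wa := inferInstance
  let B := Module.finBasis K Wa
  have hB : ∀ i, ∃ G ∈ restrictTotalDegree γ K a,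
      Ideal.Quotient.mk Q G = (B i : MvPolynomial γ K ⧸ Q) := by
    intro i
    obtain ⟨G, hG, hGB⟩ := (B i).2
    exact ⟨G, hG, hGB⟩
  choose G hG hGB using hB
  set S := (Vw K (wt γ ρ W) (a + W * (v * b))).map (Ideal.Quotient.mkₐ K P).toLinearMap with hS
  have hfinS : Module.Finite K S := hV.finite_map P _
  let F : (Fin v → Fin (b + 1)) × Fin (finrank K Wa) → MvPolynomial (γ ⊕ ρ) K := fun x =>
    rename Sum.inl (G x.2) * ∏ l, X (Sum.inr (j l)) ^ (x.1 l : ℕ)
  have hF1 : ∀ x, F x ∈ Vw K (wt γ ρ W) (a + W * (v * b)) := by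
    intro x
    have h1 := prod_mem_Vw (K := K) (γ := γ) W j (fun l => (x.1 l : ℕ)) (b := b)
      (fun l => Nat.lt_succ_iff.mp (x.1 l).2) Finset.univ
    rw [Finset.card_univ, Fintype.card_fin] at h1
    exact H580.mul_mem_Vw _ (rename_mem_Vw W (hG x.2)) h1
  let fam : (Fin v → Fin (b + 1)) × Fin (finrank K Wa) → S := fun x =>
    ⟨Ideal.Quotient.mk P (F x), F x, hF1 x, rfl⟩
  have hli : LinearIndependent K fam := by
    rw [Fintype.linearIndependent_iff]
    intro c hc
    -- the polynomial with coefficients in `K[γ]`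
    let H : MvPolynomial (Fin v) (MvPolynomial γ K) :=
      ∑ α : Fin v → Fin (b + 1), monomial (Finsupp.equivFunOnFinite.symm fun l => (α l : ℕ))
        (∑ i, c (α, i) • G i)
    have hH : emb j H = ∑ x, c x • F x := by
      rw [map_sum, Fintype.sum_prod_type]
      refine Finset.sum_congr rfl fun α _ => ?_
      rw [emb_monomial, map_sum, Finset.sum_mul]
      refine Finset.sum_congr rfl fun i _ => ?_
      simp only [F, map_smul, Finsupp.coe_equivFunOnFinite_symm, smul_mul_assoc]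
    have hHP : emb j H ∈ P := by
      rw [hH, ← Ideal.Quotient.eq_zero_iff_mem]
      have h2 := congrArg (Subtype.val) hc
      rw [Submodule.coe_sum] at h2
      simp only [Submodule.coe_smul, ZeroMemClass.coe_zero, fam] at h2
      have h3 : Ideal.Quotient.mk P (∑ x, c x • F x) = ∑ x, c x • Ideal.Quotient.mk P (F x) := by
        rw [map_sum]
        refine Finset.sum_congr rfl fun x _ => ?_
        exact map_smul (Ideal.Quotient.mkₐ K P) (c x) (F x)
      rw [h3]
      exact h2
    have hcoef := hv H hHP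
    rintro ⟨α, i⟩
    have h4 := hcoef (Finsupp.equivFunOnFinite.symm fun l => (α l : ℕ))
    have h5 : coeff (Finsupp.equivFunOnFinite.symm fun l => (α l : ℕ)) H =
        ∑ i, c (α, i) • G i := by
      simp only [H]
      rw [coeff_sum, Finset.sum_eq_single α]
      · rw [coeff_monomial, if_pos rfl]
      · intro β _ hβ
        rw [coeff_monomial, if_neg]
        intro h
        apply hβ
        have h6 := Finsupp.equivFunOnFinite.symm.injective h
        funext l
        exact Fin.ext (congrFun h6 l)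
      · intro h; exact absurd (Finset.mem_univ _) h
    rw [h5] at h4
    have h6 : (∑ i, c (α, i) • G i) ∈ Q := h4
    rw [← Ideal.Quotient.eq_zero_iff_mem] at h6
    have h7 : ∑ i, c (α, i) • (B i : MvPolynomial γ K ⧸ Q) = 0 := by
      rw [← h6, map_sum]
      refine Finset.sum_congr rfl fun i _ => ?_
      rw [← hGB i]
      exact (map_smul (Ideal.Quotient.mkₐ K Q) (c (α, i)) (G i)).symm
    have h8 : ∑ i, c (α, i) • B i = 0 := by
      apply Subtype.ext
      rw [Submodule.coe_sum]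
      simpa using h7
    exact Fintype.linearIndependent_iff.1 B.linearIndependent _ h8 i
  have h1 := hli.fintype_card_le_finrank
  rw [Fintype.card_prod, Fintype.card_fin, Fintype.card_fun, Fintype.card_fin, Fintype.card_fin] at h1
  rw [mul_comm]
  exact h1

end Vale.Agent.P054.T2.H455
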