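import Vale.Agent.P054.T2.H455.Surj1

/-!
# P054 / T2: lower bound of the weighted Hilbert function by the one of the elimination ideal

The general form of `hilb_lower` (Surj1): weights `w₀` on `γ`, `W` on `ρ`.
-/

open MvPolynomial Module Finset

namespace Vale.Agent.P054.T2.H455

open H580 (hilbF Vw IsFilt)

variable {K : Type*} [Field K] {γ ρ : Type*}

theorem rename_mem_Vw_w (w₀ : γ → ℕ) (w₁ : ρ → ℕ) {a : ℕ} {G : MvPolynomial γ K}
    (hG : G ∈ Vw K w₀ a) :
    (rename Sum.inl G : MvPolynomial (γ ⊕ ρ) K) ∈ Vw K (Sum.elim w₀ w₁) a := by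
  classical
  rw [H580.mem_Vw] at hG ⊢
  intro s hs
  rw [support_rename_of_injective Sum.inl_injective, Finset.mem_image] at hs
  obtain ⟨t, ht, rfl⟩ := hs
  refine le_trans (le_of_eq ?_) (hG t ht)
  rw [Finsupp.weight_apply, Finsupp.sum_mapDomain_index (by simp) (by intros; simp [add_mul]),
    Finsupp.weight_apply]
  simp

theorem prod_mem_Vw_w {v : ℕ} (w₀ : γ → ℕ) (W : ℕ) (j : Fin v → ρ) (α : Fin v → ℕ) {b : ℕ}
    (hα : ∀ l, α l ≤ b) (s : Finset (Fin v)) :
    (∏ l ∈ s, X (Sum.inr (j l)) ^ α l : MvPolynomial (γ ⊕ ρ) K) ∈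
      Vw K (Sum.elim w₀ (fun _ => W)) (W * (s.card * b)) := by
  classical
  induction s using Finset.induction_on with
  | empty =>
    rw [Finset.prod_empty, ← C_1]
    exact H580.C_mem_Vw _ _ _
  | insert l s hl ih =>
    rw [Finset.prod_insert hl, Finset.card_insert_of_notMem hl]
    have h1 : ∀ n, (X (Sum.inr (j l)) ^ n : MvPolynomial (γ ⊕ ρ) K) ∈
        Vw K (Sum.elim w₀ (fun _ => W)) (W * n) := by
      intro n
      induction n with
      | zero =>
        rw [pow_zero, ← C_1]
        exact H580.C_mem_Vw _ _ _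
      | succ n ihn =>
        rw [pow_succ, mul_add, mul_one]
        exact H580.mul_mem_Vw _ ihn (H580.X_mem_Vw (Sum.elim w₀ (fun _ : ρ => W)) (Sum.inr (j l)))
    have h2 := H580.mul_mem_Vw _ (h1 (α l)) ih
    refine H580.Vw_mono _ ?_ h2
    have h3 : W * α l ≤ W * b := Nat.mul_le_mul_left _ (hα l)
    calc W * α l + W * (s.card * b) ≤ W * b + W * (s.card * b) := Nat.add_le_add_right h3 _
      _ = W * ((s.card + 1) * b) := by ring

/-- lower bound of the weighted Hilbert function by the one of `P ∩ K[γ]`, any weights on `γ` -/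
theorem hilb_lower_w [Finite γ] [Finite ρ] (P : Ideal (MvPolynomial (γ ⊕ ρ) K)) {v : ℕ}
    (j : Fin v → ρ) (hv : VIndAt P j) (w₀ : γ → ℕ) (hw₀ : ∀ i, w₀ i ≠ 0) {W : ℕ} (hW : W ≠ 0)
    (a b : ℕ) :
    hilbF (Vw K w₀)
      (P.comap (rename Sum.inl : MvPolynomial γ K →ₐ[K] MvPolynomial (γ ⊕ ρ) K)) a * (b + 1) ^ v ≤
      hilbF (Vw K (Sum.elim w₀ (fun _ => W))) P (a + W * (v * b)) := by
  classical
  have hw : ∀ i : γ ⊕ ρ, (Sum.elim w₀ (fun _ => W)) i ≠ 0 := by
    intro i
    rcases i with i | i
    · simpa using hw₀ i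
    · simpa using hW
  have hV : IsFilt (Vw K (Sum.elim w₀ (fun _ : ρ => W))) := H580.isFilt_Vw _ hw
  have hV0 : IsFilt (Vw K w₀) := H580.isFilt_Vw _ hw₀
  set Q := P.comap (rename Sum.inl : MvPolynomial γ K →ₐ[K] MvPolynomial (γ ⊕ ρ) K) with hQ
  set Wa := (Vw K w₀ a).map (Ideal.Quotient.mkₐ K Q).toLinearMap with hWa
  have hfinWa : Module.Finite K Wa := hV0.finite_map Q a
  let B := Module.finBasis K Wa
  have hB : ∀ i, ∃ G ∈ Vw K w₀ a,
      Ideal.Quotient.mk Q G = (B i : MvPolynomial γ K ⧸ Q) := by
    intro i
    obtain ⟨G, hG, hGB⟩ := (B i).2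
    exact ⟨G, hG, hGB⟩
  choose G hG hGB using hB
  set S := (Vw K (Sum.elim w₀ (fun _ : ρ => W)) (a + W * (v * b))).map
    (Ideal.Quotient.mkₐ K P).toLinearMap with hS
  have hfinS : Module.Finite K S := hV.finite_map P _
  let F : (Fin v → Fin (b + 1)) × Fin (finrank K Wa) → MvPolynomial (γ ⊕ ρ) K := fun x =>
    rename Sum.inl (G x.2) * ∏ l, X (Sum.inr (j l)) ^ (x.1 l : ℕ)
  have hF1 : ∀ x, F x ∈ Vw K (Sum.elim w₀ (fun _ : ρ => W)) (a + W * (v * b)) := by
    intro x
    have h1 := prod_mem_Vw_w (K := K) w₀ W j (fun l => (x.1 l : ℕ)) (b := b)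
      (fun l => Nat.lt_succ_iff.mp (x.1 l).2) Finset.univ
    rw [Finset.card_univ, Fintype.card_fin] at h1
    exact H580.mul_mem_Vw _ (rename_mem_Vw_w w₀ _ (hG x.2)) h1
  let fam : (Fin v → Fin (b + 1)) × Fin (finrank K Wa) → S := fun x =>
    ⟨Ideal.Quotient.mk P (F x), F x, hF1 x, rfl⟩
  have hli : LinearIndependent K fam := by
    rw [Fintype.linearIndependent_iff]
    intro c hc
    let H : MvPolynomial (Fin v) (MvPolynomial γ K) :=
      ∑ α : Fin v → Fin (b + 1), monomial (Finsupp.equivFunOnFinite.symm fun l => (α l : ℕ))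
        (∑ i, c (α, i) • G i)
    have hH : emb j H = ∑ x, c x • F x := by
      rw [map_sum, Fintype.sum_prod_type]
      refine Finset.sum_congr rfl fun α _ => ?_
      rw [emb_monomial, map_sum, Finset.sum_mul]
      refine Finset.sum_congr rfl fun i _ => ?_
      simp only [F, map_smul, Finsupp.coe_equivFunOnFinite_symm, smul_mul_assoc]
    have hHP : emb j H ∈ P := by
      rw [hH, ← Ideal.Quotient.eq_zero_iff_mem]
      have h2 := congrArg (Subtype.val) hc
      rw [Submodule.coe_sum] at h2
      simp only [Submodule.coe_smul, ZeroMemClass.coe_zero, fam] at h2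
      have h3 : Ideal.Quotient.mk P (∑ x, c x • F x) = ∑ x, c x • Ideal.Quotient.mk P (F x) := by
        rw [map_sum]
        refine Finset.sum_congr rfl fun x _ => ?_
        exact map_smul (Ideal.Quotient.mkₐ K P) (c x) (F x)
      rw [h3]
      exact h2
    have hcoef := hv H hHP
    rintro ⟨α, i⟩
    have h4 := hcoef (Finsupp.equivFunOnFinite.symm fun l => (α l : ℕ))
    have h5 : coeff (Finsupp.equivFunOnFinite.symm fun l => (α l : ℕ)) H =
        ∑ i, c (α, i) • G i := by
      simp only [H]
      rw [coeff_sum, Finset.sum_eq_single α]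
      · rw [coeff_monomial, if_pos rfl]
      · intro β _ hβ
        rw [coeff_monomial, if_neg]
        intro h
        apply hβ
        have h6 := Finsupp.equivFunOnFinite.symm.injective h
        funext l
        exact Fin.ext (congrFun h6 l)
      · intro h; exact absurd (Finset.mem_univ _) h
    rw [h5] at h4
    have h6 : (∑ i, c (α, i) • G i) ∈ Q := h4
    rw [← Ideal.Quotient.eq_zero_iff_mem] at h6
    have h7 : ∑ i, c (α, i) • (B i : MvPolynomial γ K ⧸ Q) = 0 := by
      rw [← h6, map_sum]
      refine Finset.sum_congr rfl fun i _ => ?_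
      rw [← hGB i]
      exact (map_smul (Ideal.Quotient.mkₐ K Q) (c (α, i)) (G i)).symm
    have h8 : ∑ i, c (α, i) • B i = 0 := by
      apply Subtype.ext
      rw [Submodule.coe_sum]
      simpa using h7
    exact Fintype.linearIndependent_iff.1 B.linearIndependent _ h8 i
  have h1 := hli.fintype_card_le_finrank
  rw [Fintype.card_prod, Fintype.card_fin, Fintype.card_fun, Fintype.card_fin, Fintype.card_fin] at h1
  rw [mul_comm]
  exact h1

/-- algebraic independence for an intersection of ideals -/
theorem VIndAt.iInf {ι : Type*} (A : Finset ι) (P : ι → Ideal (MvPolynomial (γ ⊕ ρ) K)) {v : ℕ}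
    (j : Fin v → ρ) (h : ∀ i ∈ A, VIndAt (P i) j) : VIndAt (⨅ i ∈ A, P i) j := by
  intro G hG α
  simp only [Submodule.mem_iInf] at hG ⊢
  exact fun i hi => h i hi G (hG i hi) α

/-- **algebraic independence from vertical tangent vectors** (characteristic 0): `P = ker φ`, `v`
vectors `τ i` over the field `L` which kill the `s`-gradients of `P`, with a nonzero minor -/
theorem vindAt_of_tangent [CharZero K] [Finite ρ] {L : Type*} [Field L] [Algebra K L]
    (φ : MvPolynomial (γ ⊕ ρ) K →ₐ[K] L) {v : ℕ} (j : Fin v → ρ) (hj : Function.Injective j)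
    (τ : Fin v → ρ → L) (hdet : (Matrix.of fun i l => τ i (j l)).det ≠ 0)
    (hτ : ∀ F, φ F = 0 → ∀ i, ∀ s : Finset ρ, (∀ b, b ∉ s → φ (pderiv (Sum.inr b) F) = 0) →
      ∑ b ∈ s, φ (pderiv (Sum.inr b) F) * τ i b = 0) :
    VIndAt (RingHom.ker φ) j := by
  classical
  have hcast : ∀ n : ℕ, n ≠ 0 → (n : L) ≠ 0 := by
    have : CharZero L := charZero_of_injective_algebraMap (algebraMap K L).injective
    exact fun n hn => by exact_mod_cast hn
  -- derivative of `emb j G`
  have hder : ∀ (G : MvPolynomial (Fin v) (MvPolynomial γ K)) (b : ρ),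
      pderiv (Sum.inr b) (emb j G) = ∑ l ∈ univ.filter (fun l => j l = b), emb j (pderiv l G) := by
    intro G b
    induction G using MvPolynomial.induction_on with
    | C a =>
      have h1 : emb j (C a : MvPolynomial (Fin v) (MvPolynomial γ K)) =
          (rename Sum.inl a : MvPolynomial (γ ⊕ ρ) K) := by
        simp [emb]
      rw [h1]
      have h2 : pderiv (Sum.inr b) (rename Sum.inl a : MvPolynomial (γ ⊕ ρ) K) = 0 := by
        refine pderiv_eq_zero_of_notMem_vars ?_
        intro hb
        have := vars_rename (Sum.inl : γ → γ ⊕ ρ) a hb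
        simp at this
      rw [h2]
      simp
    | add p q hp hq =>
      rw [map_add, map_add, hp, hq, ← Finset.sum_add_distrib]
      refine Finset.sum_congr rfl fun l _ => ?_
      rw [map_add, map_add]
    | mul_X p l hp =>
      have h1 : emb j (X l : MvPolynomial (Fin v) (MvPolynomial γ K)) = X (Sum.inr (j l)) := by
        simp [emb]
      rw [map_mul, h1, pderiv_mul, hp, pderiv_X, Finset.sum_mul]
      have h2 : ∀ l', emb j (pderiv l' (p * X l)) = emb j (pderiv l' p) * X (Sum.inr (j l)) +
          emb j p * (if l = l' then 1 else 0) := by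
        intro l'
        rw [pderiv_mul, map_add, map_mul, map_mul, h1, pderiv_X]
        congr 2
        by_cases hl : l = l'
        · subst hl; simp
        · rw [Pi.single_eq_of_ne hl, if_neg hl, map_zero]
      simp only [h2, Finset.sum_add_distrib, ← Finset.mul_sum]
      congr 2
      rw [Finset.sum_ite_eq]
      by_cases hb : j l = b
      · subst hb
        simp
      · rw [Pi.single_eq_of_ne (fun h => hb (Sum.inr_injective h)), if_neg (by simp [hb])]
  -- the induction
  have key : ∀ (N : ℕ) (G : MvPolynomial (Fin v) (MvPolynomial γ K)), G.totalDegree ≤ N →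
      φ (emb j G) = 0 → ∀ α, φ (rename Sum.inl (coeff α G)) = 0 := by
    intro N
    induction N with
    | zero =>
      intro G hG h0 α
      have hGc : G = C (coeff 0 G) := totalDegree_eq_zero_iff_eq_C.mp (Nat.le_zero.mp hG)
      have h1 : φ (rename Sum.inl (coeff 0 G)) = 0 := by
        rw [hGc] at h0
        simpa [emb] using h0
      by_cases hα : α = 0
      · rw [hα]; exact h1
      · rw [hGc, coeff_C, if_neg (Ne.symm hα), map_zero, map_zero]
    | succ N ih =>
      intro G hG h0 α
      -- the derivatives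
      have hd : ∀ l, φ (emb j (pderiv l G)) = 0 := by
        have h1 : ∀ i, ∑ l, τ i (j l) * φ (emb j (pderiv l G)) = 0 := by
          intro i
          have h2 := hτ (emb j G) h0 i (univ.image j) (by
            intro b hb
            rw [hder]
            rw [Finset.filter_false_of_mem, Finset.sum_empty, map_zero]
            intro l _ hl
            exact hb (Finset.mem_image.2 ⟨l, Finset.mem_univ _, hl⟩))
          rw [Finset.sum_image (fun a _ b _ h => hj h)] at h2
          rw [← h2]
          refine Finset.sum_congr rfl fun l _ => ?_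
          rw [hder]
          have h3 : univ.filter (fun l' => j l' = j l) = {l} := by
            ext l'
            simp [hj.eq_iff]
          rw [h3, Finset.sum_singleton, mul_comm]
        have h4 : (Matrix.of fun i l => τ i (j l)).mulVec (fun l => φ (emb j (pderiv l G))) = 0 := by
          funext i
          exact h1 i
        have h5 := Matrix.eq_zero_of_mulVec_eq_zero hdet h4
        exact fun l => congrFun h5 l
      have hpos : ∀ α : Fin v →₀ ℕ, α ≠ 0 → φ (rename Sum.inl (coeff α G)) = 0 := by
        intro α hα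
        obtain ⟨l, hl⟩ : ∃ l, α l ≠ 0 := by
          by_contra hne
          push Not at hne
          exact hα (Finsupp.ext hne)
        have hdeg : (pderiv l G).totalDegree ≤ N := by
          by_cases hz : pderiv l G = 0
          · rw [hz, totalDegree_zero]; exact Nat.zero_le _
          · refine Finset.sup_le fun m hm => ?_
            rw [MvPolynomial.mem_support_iff, coeff_pderiv] at hm
            have h6 : coeff (m + Finsupp.single l 1) G ≠ 0 := left_ne_zero_of_mul hm
            have h7 := (le_totalDegree (MvPolynomial.mem_support_iff.2 h6)).trans hG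
            have h8 : ((m + Finsupp.single l 1).sum fun _ e => e) = (m.sum fun _ e => e) + 1 := by
              rw [Finsupp.sum_add_index' (fun _ => rfl) (fun _ _ _ => rfl),
                Finsupp.sum_single_index rfl]
            omega
        have h9 := ih (pderiv l G) hdeg (hd l) (α - Finsupp.single l 1)
        have h10 : α - Finsupp.single l 1 + Finsupp.single l 1 = α := by
          refine tsub_add_cancel_of_le ?_
          rw [Finsupp.single_le_iff]
          omega
        rw [coeff_pderiv, h10] at h9
        generalize hk : (α - Finsupp.single l 1 : Fin v →₀ ℕ) l = k' at h9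
        have h11 : (rename Sum.inl (coeff α G * ((k' : MvPolynomial γ K) + 1)) :
            MvPolynomial (γ ⊕ ρ) K) = rename Sum.inl (coeff α G) *
              ((k' + 1 : ℕ) : MvPolynomial (γ ⊕ ρ) K) := by
          rw [map_mul]
          congr 1
          push_cast
          simp
        rw [h11, map_mul, map_natCast] at h9
        exact (mul_eq_zero.mp h9).resolve_right (hcast _ (Nat.succ_ne_zero _))
      by_cases hα : α = 0
      · subst hα
        -- the constant term
        have h12 : φ (emb j G) = ∑ m ∈ G.support, φ (emb j (monomial m (coeff m G))) := by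
          conv_lhs => rw [G.as_sum]
          rw [map_sum, map_sum]
        rw [h0] at h12
        by_cases h0s : (0 : Fin v →₀ ℕ) ∈ G.support
        · rw [Finset.sum_eq_single_of_mem _ h0s] at h12
          · rw [emb_monomial] at h12
            simpa using h12.symm
          · intro m _ hm
            rw [emb_monomial, map_mul, hpos m hm, zero_mul]
        · rw [MvPolynomial.notMem_support_iff.1 h0s, map_zero, map_zero]
      · exact hpos α hα
  intro G hG α
  rw [RingHom.mem_ker] at hG ⊢
  exact key _ G le_rfl hG α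

end Vale.Agent.P054.T2.H455
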